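import Mathlib.Data.Matrix.Mul
import Mathlib.LinearAlgebra.Matrix.Symmetric
import Mathlib.Data.ZMod.Basic
import Mathlib.Data.Fintype.Prod
import Mathlib.Data.Fintype.Pi
import Mathlib.Data.Int.Interval
import Mathlib.Algebra.BigOperators.Fin

/-!
Basic definitions for the lower bound `n^{-2} exp (c log n / log log n)` in Heilbronn's problem.
-/

namespace Vale.Agent.P036.LB

/-- vectors with 8 symplectic planes; `(ξ, η)` -/
abbrev V (R : Type) := (Fin 8 → R) × (Fin 8 → R)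

/-- the standard symplectic form -/
def om {R : Type} [CommRing R] (u v : V R) : R := u.1 ⬝ᵥ v.2 - u.2 ⬝ᵥ v.1

/-- coordinatewise reduction of an integer vector -/
def red (m : ℕ) (x : V ℤ) : V (ZMod m) := (fun i => (x.1 i : ZMod m), fun i => (x.2 i : ZMod m))

/-- ordered triples (equal entries allowed) of elements of `S` with vanishing symplectic area -/
def zeroTriples {R : Type} [CommRing R] [DecidableEq R] (S : Finset (V R)) :
    Finset (V R × V R × V R) :=
  (S ×ˢ S ×ˢ S).filter fun t => om (t.2.1 - t.1) (t.2.2 - t.1) = 0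

/-- sum of the squares of the first 15 coordinates -/
def sq15 (x : V ℤ) : ℤ := ∑ i, x.1 i ^ 2 + ∑ i : Fin 7, x.2 i.castSucc ^ 2

/-- the window as a predicate: `F(x') ≤ x_last < F(x') + h`, `F = ⌊sq15 / (32 M)⌋` -/
def InW (M h : ℕ) (x : V ℤ) : Prop :=
  (∀ i, 0 ≤ x.1 i ∧ x.1 i < M) ∧ (∀ i : Fin 7, 0 ≤ x.2 i.castSucc ∧ x.2 i.castSucc < M) ∧
    sq15 x / (32 * M) ≤ x.2 (Fin.last 7) ∧ x.2 (Fin.last 7) < sq15 x / (32 * M) + h

instance (M h : ℕ) : DecidablePred (InW M h) := fun x => by unfold InW; infer_instance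

/-- the window as a finset (coordinates in `[0, M + h)` suffice) -/
def W (M h : ℕ) : Finset (V ℤ) :=
  ((Fintype.piFinset fun _ : Fin 8 => Finset.Ico (0:ℤ) (M + h)) ×ˢ
    (Fintype.piFinset fun _ : Fin 8 => Finset.Ico (0:ℤ) (M + h))).filter (InW M h)

/-- two integer vectors are parallel: all 2x2 minors vanish -/
def Par (u v : V ℤ) : Prop :=
  (∀ i j, u.1 i * v.1 j = u.1 j * v.1 i) ∧ (∀ i j, u.1 i * v.2 j = u.2 j * v.1 i) ∧
    (∀ i j, u.2 i * v.2 j = u.2 j * v.2 i)

instance (u v : V ℤ) : Decidable (Par u v) := by unfold Par; infer_instance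

/-- ordered collinear triples of pairwise distinct points of `S` -/
def colTriples (S : Finset (V ℤ)) : Finset (V ℤ × V ℤ × V ℤ) :=
  (S ×ˢ S ×ˢ S).filter fun t =>
    t.1 ≠ t.2.1 ∧ t.2.1 ≠ t.2.2 ∧ t.1 ≠ t.2.2 ∧ Par (t.2.1 - t.1) (t.2.2 - t.1)

/-- the finset of symmetric 9 by 9 matrices over `ZMod p` -/
def Sym (p : ℕ) [NeZero p] : Finset (Matrix (Fin 9) (Fin 9) (ZMod p)) :=
  Finset.univ.filter fun A => A.transpose = A

end Vale.Agent.P036.LB
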