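import Mathlib.Data.ZMod.Units
import Mathlib.RingTheory.ZMod.UnitsCyclic
import Mathlib.Tactic.Ring
import Mathlib.Tactic.LinearCombination
import Mathlib.Tactic.FinCases
import Vale.Agent.P036.LB.Basic

/-! Block A: local sets modulo a prime `l ≥ 11` without triples of zero symplectic area. -/

namespace Vale.Agent.P036.LB
open Finset

/-- parameter vector of the point `(i, s)` -/
def xiA (l : ℕ) (i : Fin 7) (s : ZMod l) : Fin 8 → ZMod l :=
  Fin.cons ((((i : ℕ) + 1 : ℕ)) : ZMod l) (Pi.single i s)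

/-- points on the coordinatewise parabola -/
def parab {l : ℕ} (x : Fin 8 → ZMod l) : V (ZMod l) := (x, fun p => x p ^ 2)

theorem om_parab {l : ℕ} (a b c : Fin 8 → ZMod l) :
    om (parab b - parab a) (parab c - parab a) =
      ∑ p, (b p - a p) * (c p - a p) * (c p - b p) := by
  unfold om parab dotProduct
  rw [← Finset.sum_sub_distrib]
  refine Finset.sum_congr rfl fun p _ => ?_
  simp only [Prod.fst_sub, Prod.snd_sub, Pi.sub_apply]
  ring

theorem idx_inj {l : ℕ} (hl : 11 ≤ l) {i j : Fin 7}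
    (h : (((i : ℕ) + 1 : ℕ) : ZMod l) = (((j : ℕ) + 1 : ℕ) : ZMod l)) : i = j := by
  rw [ZMod.natCast_eq_natCast_iff'] at h
  have hi := i.2
  have hj := j.2
  rw [Nat.mod_eq_of_lt (by omega), Nat.mod_eq_of_lt (by omega)] at h
  exact Fin.ext (by omega)

theorem om_xiA {l : ℕ} (i j k : Fin 7) (s t u : ZMod l) :
    om (parab (xiA l j t) - parab (xiA l i s)) (parab (xiA l k u) - parab (xiA l i s)) =
      ((((j : ℕ) + 1 : ℕ) : ZMod l) - (((i : ℕ) + 1 : ℕ) : ZMod l)) *
        ((((k : ℕ) + 1 : ℕ) : ZMod l) - (((i : ℕ) + 1 : ℕ) : ZMod l)) *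
        ((((k : ℕ) + 1 : ℕ) : ZMod l) - (((j : ℕ) + 1 : ℕ) : ZMod l)) +
      ∑ p : Fin 7, ((Pi.single j t : Fin 7 → ZMod l) p - (Pi.single i s : Fin 7 → ZMod l) p) *
        ((Pi.single k u : Fin 7 → ZMod l) p - (Pi.single i s : Fin 7 → ZMod l) p) *
        ((Pi.single k u : Fin 7 → ZMod l) p - (Pi.single j t : Fin 7 → ZMod l) p) := by
  rw [om_parab, Fin.sum_univ_succ]
  simp only [xiA, Fin.cons_zero, Fin.cons_succ]

theorem om_xiA_ne {l : ℕ} [Fact l.Prime] (hl : 11 ≤ l) (i j k : Fin 7) (s t u : ZMod l)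
    (hs : s ≠ 0) (ht : t ≠ 0) (hu : u ≠ 0) (h1 : (i, s) ≠ (j, t)) (h2 : (j, t) ≠ (k, u))
    (h3 : (i, s) ≠ (k, u)) :
    om (parab (xiA l j t) - parab (xiA l i s)) (parab (xiA l k u) - parab (xiA l i s)) ≠ 0 := by
  rw [om_xiA]
  have hinj : ∀ {a b : Fin 7}, a ≠ b →
      (((a : ℕ) + 1 : ℕ) : ZMod l) - (((b : ℕ) + 1 : ℕ) : ZMod l) ≠ 0 := by
    intro a b hab h
    exact hab (idx_inj hl (sub_eq_zero.mp h))
  by_cases hij : i = j
  · subst hij
    have hst : t - s ≠ 0 := fun h => h1 (by rw [sub_eq_zero.mp h])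
    by_cases hik : i = k
    · subst hik
      have hus : u - s ≠ 0 := fun h => h3 (by rw [sub_eq_zero.mp h])
      have hut : u - t ≠ 0 := fun h => h2 (by rw [sub_eq_zero.mp h])
      rw [Finset.sum_eq_single i]
      · simp only [Pi.single_eq_same, sub_self, zero_mul, zero_add]
        exact mul_ne_zero (mul_ne_zero hst hus) hut
      · intro p _ hp
        simp only [Pi.single_eq_of_ne hp, sub_self, zero_mul]
      · intro h; exact absurd (Finset.mem_univ _) h
    · rw [Finset.sum_eq_single i]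
      · simp only [Pi.single_eq_same, sub_self, zero_mul, zero_add, Pi.single_eq_of_ne hik,
          zero_sub]
        exact mul_ne_zero (mul_ne_zero hst (neg_ne_zero.mpr hs)) (neg_ne_zero.mpr ht)
      · intro p _ hp
        simp only [Pi.single_eq_of_ne hp, sub_self, zero_mul]
      · intro h; exact absurd (Finset.mem_univ _) h
  · by_cases hik : i = k
    · subst hik
      have hus : u - s ≠ 0 := fun h => h3 (by rw [sub_eq_zero.mp h])
      rw [Finset.sum_eq_single i]
      · simp only [Pi.single_eq_same, sub_self, zero_mul, mul_zero, zero_add,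
          Pi.single_eq_of_ne hij, zero_sub, sub_zero]
        exact mul_ne_zero (mul_ne_zero (neg_ne_zero.mpr hs) hus) hu
      · intro p _ hp
        simp only [Pi.single_eq_of_ne hp, sub_self, mul_zero, zero_mul]
      · intro h; exact absurd (Finset.mem_univ _) h
    · by_cases hjk : j = k
      · subst hjk
        have hut : u - t ≠ 0 := fun h => h2 (by rw [sub_eq_zero.mp h])
        rw [Finset.sum_eq_single j]
        · simp only [Pi.single_eq_same, sub_self, mul_zero, zero_add,
            Pi.single_eq_of_ne (Ne.symm hij), sub_zero]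
          exact mul_ne_zero (mul_ne_zero ht hu) hut
        · intro p _ hp
          simp only [Pi.single_eq_of_ne hp, sub_self, mul_zero]
        · intro h; exact absurd (Finset.mem_univ _) h
      · rw [Finset.sum_eq_zero]
        · rw [add_zero]
          exact mul_ne_zero (mul_ne_zero (hinj (Ne.symm hij)) (hinj (Ne.symm hik)))
            (hinj (Ne.symm hjk))
        · intro p _
          by_cases hpi : p = i
          · subst hpi
            rw [Pi.single_eq_of_ne hij, Pi.single_eq_of_ne hik]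
            ring
          · by_cases hpj : p = j
            · subst hpj
              rw [Pi.single_eq_of_ne hpi, Pi.single_eq_of_ne hjk]
              ring
            · rw [Pi.single_eq_of_ne hpi, Pi.single_eq_of_ne hpj]
              ring

theorem xiA_inj {l : ℕ} (hl : 11 ≤ l) {i j : Fin 7} {s t : ZMod l}
    (h : xiA l i s = xiA l j t) : i = j ∧ s = t := by
  have h0 := congrFun h 0
  simp only [xiA, Fin.cons_zero] at h0
  have hij := idx_inj hl h0
  subst hij
  have h1 := congrFun h i.succ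
  simp only [xiA, Fin.cons_succ, Pi.single_eq_same] at h1
  exact ⟨rfl, h1⟩

theorem local_set (l : ℕ) [Fact l.Prime] (hl : 11 ≤ l) :
    ∃ S : Finset (V (ZMod l)), S.card = 7 * (l - 1) ∧
      ∀ z ∈ S, ∀ q ∈ S, ∀ y ∈ S, z ≠ q → q ≠ y → z ≠ y → om (q - z) (y - z) ≠ 0 := by
  classical
  refine ⟨(Finset.univ : Finset (Fin 7 × (ZMod l)ˣ)).image
    (fun a => parab (xiA l a.1 (a.2 : ZMod l))), ?_, ?_⟩
  · rw [Finset.card_image_of_injective]
    · rw [Finset.card_univ, Fintype.card_prod, Fintype.card_fin, ZMod.card_units]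
    · rintro ⟨i, s⟩ ⟨j, t⟩ h
      have h1 : xiA l i s = xiA l j t := congrArg Prod.fst h
      obtain ⟨h2, h3⟩ := xiA_inj hl h1
      exact Prod.ext h2 (Units.ext h3)
  · intro z hz q hq y hy hzq hqy hzy
    rw [Finset.mem_image] at hz hq hy
    obtain ⟨⟨i, s⟩, -, rfl⟩ := hz
    obtain ⟨⟨j, t⟩, -, rfl⟩ := hq
    obtain ⟨⟨k, u⟩, -, rfl⟩ := hy
    refine om_xiA_ne hl i j k s t u s.ne_zero t.ne_zero u.ne_zero ?_ ?_ ?_
    · intro h
      obtain ⟨h1, h2⟩ := Prod.mk.inj h
      exact hzq (by simp only [h1, h2])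
    · intro h
      obtain ⟨h1, h2⟩ := Prod.mk.inj h
      exact hqy (by simp only [h1, h2])
    · intro h
      obtain ⟨h1, h2⟩ := Prod.mk.inj h
      exact hzy (by simp only [h1, h2])

end Vale.Agent.P036.LB
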