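import Mathlib.Data.ZMod.Basic
import Mathlib.Algebra.Group.Subgroup.Finite
import Mathlib.GroupTheory.Coset.Card
import Mathlib.Tactic.Ring
import Mathlib.Tactic.LinearCombination
import Mathlib.Tactic.Positivity
import Mathlib.Tactic.GCongr
import Vale.Agent.P036.LB.Basic
import Vale.Agent.P036.LB.A

/-! Block B: lifting a local set from `l` to `l ^ 2`. -/

namespace Vale.Agent.P036.LB
open Finset

section

variable {l : ℕ}

/-- reduction `Z/l² → Z/l` -/
def rho (l : ℕ) : ZMod (l ^ 2) →+* ZMod l := ZMod.castHom (dvd_pow_self l two_ne_zero) (ZMod l)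

/-- reduction of vectors -/
def RR (l : ℕ) : V (ZMod (l ^ 2)) →+ V (ZMod l) where
  toFun x := (fun i => rho l (x.1 i), fun i => rho l (x.2 i))
  map_zero' := by ext i <;> simp
  map_add' x y := by ext i <;> simp

theorem RR_fst (x : V (ZMod (l ^ 2))) (i : Fin 8) : (RR l x).1 i = rho l (x.1 i) := rfl
theorem RR_snd (x : V (ZMod (l ^ 2))) (i : Fin 8) : (RR l x).2 i = rho l (x.2 i) := rfl

theorem RR_surj : Function.Surjective (RR l) := by
  intro y
  have hs : Function.Surjective (rho l) := ZMod.castHom_surjective _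
  refine ⟨(fun i => (hs (y.1 i)).choose, fun i => (hs (y.2 i)).choose), ?_⟩
  ext i
  · exact (hs (y.1 i)).choose_spec
  · exact (hs (y.2 i)).choose_spec

theorem card_V (n : ℕ) [NeZero n] : Fintype.card (V (ZMod n)) = n ^ 16 := by
  rw [Fintype.card_prod, Fintype.card_fun, ZMod.card, Fintype.card_fin, ← pow_add]

theorem fiber_card [NeZero l] (c : V (ZMod l)) :
    (univ.filter fun x : V (ZMod (l ^ 2)) => RR l x = c).card = l ^ 16 := by
  have hl : 0 < l := Nat.pos_of_ne_zero (NeZero.ne l)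
  have : NeZero (l ^ 2) := ⟨by positivity⟩
  have hall : ∀ d : V (ZMod l), (univ.filter fun x : V (ZMod (l ^ 2)) => RR l x = d).card =
      (univ.filter fun x : V (ZMod (l ^ 2)) => RR l x = c).card := by
    intro d
    exact AddMonoidHom.card_fiber_eq_of_mem_range (RR l) (RR_surj d) (RR_surj c)
  have h1 : (univ : Finset (V (ZMod (l ^ 2)))).card =
      ∑ d : V (ZMod l), (univ.filter fun x : V (ZMod (l ^ 2)) => RR l x = d).card :=
    Finset.card_eq_sum_card_fiberwise fun x _ => Finset.mem_univ _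
  rw [Finset.sum_congr rfl fun d _ => hall d, Finset.sum_const, Finset.card_univ, card_V,
    Finset.card_univ, card_V, smul_eq_mul] at h1
  have h2 : (l ^ 2) ^ 16 = l ^ 16 * l ^ 16 := by ring
  rw [h2] at h1
  exact (Nat.eq_of_mul_eq_mul_left (by positivity) h1).symm

theorem om_add_left {R : Type} [CommRing R] (u u' v : V R) : om (u + u') v = om u v + om u' v := by
  simp only [om, Prod.fst_add, Prod.snd_add, add_dotProduct]
  ring

theorem om_sub_left {R : Type} [CommRing R] (u u' v : V R) : om (u - u') v = om u v - om u' v := by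
  simp only [om, Prod.fst_sub, Prod.snd_sub, sub_dotProduct]
  ring

theorem om_self {R : Type} [CommRing R] (u : V R) : om u u = 0 := by
  simp only [om, dotProduct_comm, sub_self]

theorem om_swap {R : Type} [CommRing R] (u v : V R) : om u v = - om v u := by
  simp only [om, dotProduct_comm u.1, dotProduct_comm u.2, neg_sub]

theorem om_zero_left {R : Type} [CommRing R] (v : V R) : om (0 : V R) v = 0 := by
  simp [om]

/-- reduction of the form -/
theorem rho_om (u v : V (ZMod (l ^ 2))) : rho l (om u v) = om (RR l u) (RR l v) := by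
  simp only [om, map_sub, dotProduct, map_sum, map_mul, RR_fst, RR_snd]

theorem rho_eq_zero [NeZero l] {x : ZMod (l ^ 2)} (h : rho l x = 0) : ∃ y : ℕ, x = (l : ZMod (l ^ 2)) * y := by
  have hl : 0 < l := Nat.pos_of_ne_zero (NeZero.ne l)
  have : NeZero (l ^ 2) := ⟨by positivity⟩
  have h1 : ((x.val : ℕ) : ZMod l) = 0 := by
    rw [← h]
    conv_rhs => rw [← ZMod.natCast_zmod_val x]
    rw [map_natCast]
  rw [ZMod.natCast_eq_zero_iff] at h1
  obtain ⟨y, hy⟩ := h1
  refine ⟨y, ?_⟩
  rw [← ZMod.natCast_zmod_val x, hy, Nat.cast_mul]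

theorem rho_ne_zero_unit [Fact l.Prime] {x : ZMod (l ^ 2)} (h : rho l x ≠ 0) {t : ZMod (l ^ 2)}
    (ht : t * x = 0) : t = 0 := by
  have hp := Fact.out (p := l.Prime)
  have hl : 0 < l := hp.pos
  have : NeZero (l ^ 2) := ⟨by positivity⟩
  have h1 : ¬ l ∣ x.val := by
    intro hd
    apply h
    have : x = ((x.val : ℕ) : ZMod (l ^ 2)) := (ZMod.natCast_zmod_val x).symm
    rw [this, map_natCast]
    exact (ZMod.natCast_eq_zero_iff _ _).2 hd
  have h2 : Nat.Coprime x.val (l ^ 2) :=
    Nat.Coprime.pow_right 2 ((Nat.Prime.coprime_iff_not_dvd hp).2 h1).symm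
  have h3 : IsUnit x := by
    rw [← ZMod.natCast_zmod_val x]
    exact (ZMod.isUnit_iff_coprime _ _).2 h2
  exact (h3.mul_left_eq_zero).1 ht

/-- dual vector -/
theorem exists_dual [Fact l.Prime] {v : V (ZMod (l ^ 2))} (hv : RR l v ≠ 0) :
    ∃ e : V (ZMod (l ^ 2)), rho l (om e v) ≠ 0 := by
  by_contra hcon
  push Not at hcon
  apply hv
  ext i
  · have h := hcon (0, Pi.single i 1)
    simp only [om, zero_dotProduct, single_dotProduct, one_mul, zero_sub, map_neg,
      neg_eq_zero] at h
    exact h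
  · have h := hcon (Pi.single i 1, 0)
    simp only [om, zero_dotProduct, single_dotProduct, one_mul, sub_zero] at h
    exact h

/-- the number of vectors of the kernel of reduction which are orthogonal to `v` -/
theorem orth_card [Fact l.Prime] (z v : V (ZMod (l ^ 2))) (hv : RR l v ≠ 0) :
    (univ.filter fun q : V (ZMod (l ^ 2)) => RR l q = RR l z ∧ om (q - z) v = 0).card ≤ l ^ 15 := by
  have hp := Fact.out (p := l.Prime)
  have hl : 0 < l := hp.pos
  have : NeZero (l ^ 2) := ⟨by positivity⟩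
  obtain ⟨e, he⟩ := exists_dual hv
  set A := univ.filter fun q : V (ZMod (l ^ 2)) => RR l q = RR l z ∧ om (q - z) v = 0 with hA
  have hmap : ∀ a ∈ A ×ˢ (Finset.range l),
      a.1 + ((a.2 : ZMod (l ^ 2)) * (l : ZMod (l ^ 2))) • e ∈
        (univ.filter fun x : V (ZMod (l ^ 2)) => RR l x = RR l z) := by
    intro a ha
    rw [Finset.mem_product, hA, Finset.mem_filter] at ha
    rw [Finset.mem_filter]
    refine ⟨Finset.mem_univ _, ?_⟩
    rw [map_add, ha.1.2.1]
    have : RR l (((a.2 : ZMod (l ^ 2)) * (l : ZMod (l ^ 2))) • e) = 0 := by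
      ext i
      · simp [RR_fst]
      · simp [RR_snd]
    rw [this, add_zero]
  have hom : ∀ q ∈ A, ∀ t : ℕ, om (q + ((t : ZMod (l ^ 2)) * (l : ZMod (l ^ 2))) • e - z) v =
      (t : ZMod (l ^ 2)) * (l : ZMod (l ^ 2)) * om e v := by
    intro q hq t
    rw [hA, Finset.mem_filter] at hq
    have h1 : q + ((t : ZMod (l ^ 2)) * (l : ZMod (l ^ 2))) • e - z =
        (q - z) + ((t : ZMod (l ^ 2)) * (l : ZMod (l ^ 2))) • e := by abel
    rw [h1, om_add_left, hq.2.2, zero_add]
    simp only [om, Prod.smul_fst, Prod.smul_snd, smul_dotProduct, smul_eq_mul]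
    ring
  have hinj : Set.InjOn (fun a : V (ZMod (l ^ 2)) × ℕ =>
      a.1 + ((a.2 : ZMod (l ^ 2)) * (l : ZMod (l ^ 2))) • e) (A ×ˢ (Finset.range l) : Finset _) := by
    rintro ⟨q, t⟩ hq ⟨q', t'⟩ hq' heq
    rw [Finset.mem_coe, Finset.mem_product] at hq hq'
    simp only at heq hq hq'
    have e1 := hom q hq.1 t
    have e2 := hom q' hq'.1 t'
    rw [heq, e2] at e1
    have e3 : ((t' : ZMod (l ^ 2)) * (l : ZMod (l ^ 2)) - (t : ZMod (l ^ 2)) * (l : ZMod (l ^ 2))) *
        om e v = 0 := by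
      linear_combination e1
    have e4 := rho_ne_zero_unit he e3
    have e5 : (((t' * l : ℕ)) : ZMod (l ^ 2)) = ((t * l : ℕ) : ZMod (l ^ 2)) := by
      push_cast
      linear_combination e4
    rw [ZMod.natCast_eq_natCast_iff'] at e5
    rw [Finset.mem_range] at hq hq'
    have ht : t * l < l ^ 2 := by nlinarith [hq.2]
    have ht' : t' * l < l ^ 2 := by nlinarith [hq'.2]
    rw [Nat.mod_eq_of_lt ht, Nat.mod_eq_of_lt ht'] at e5
    have e6 : t' = t := Nat.eq_of_mul_eq_mul_right hl e5
    subst e6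
    have e7 : q = q' := add_right_cancel heq
    rw [e7]
  have hc := Finset.card_le_card_of_injOn _ hmap hinj
  rw [Finset.card_product, Finset.card_range, fiber_card] at hc
  have h2 : l ^ 16 = l ^ 15 * l := by ring
  rw [h2] at hc
  exact Nat.le_of_mul_le_mul_right hc hl

end

theorem local_lift (l : ℕ) [Fact l.Prime] (hl : 11 ≤ l) :
    ∃ S : Finset (V (ZMod (l ^ 2))), l ^ 17 ≤ S.card ∧
      2 * l ^ 2 * (zeroTriples S).card ≤ S.card ^ 3 := by
  classical
  have hl0 : 0 < l := by omega
  have : NeZero (l ^ 2) := ⟨by positivity⟩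
  obtain ⟨S₀, hcard, hS₀⟩ := local_set l hl
  obtain ⟨S, hS⟩ : ∃ S : Finset (V (ZMod (l ^ 2))), S = univ.filter fun x => RR l x ∈ S₀ :=
    ⟨_, rfl⟩
  have hmem : ∀ x, x ∈ S ↔ RR l x ∈ S₀ := by
    intro x; rw [hS, Finset.mem_filter]; simp
  have hScard : S.card = 7 * (l - 1) * l ^ 16 := by
    have h1 : S.card = ∑ c ∈ S₀, (S.filter fun x => RR l x = c).card :=
      Finset.card_eq_sum_card_fiberwise fun x hx => (hmem x).1 hx
    rw [h1, Finset.sum_congr rfl (g := fun _ => l ^ 16), Finset.sum_const, hcard, smul_eq_mul]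
    intro c hc
    rw [← fiber_card c]
    congr 1
    ext x
    rw [Finset.mem_filter, Finset.mem_filter, hmem]
    constructor
    · rintro ⟨_, h⟩; exact ⟨Finset.mem_univ _, h⟩
    · rintro ⟨_, h⟩; exact ⟨h ▸ hc, h⟩
  -- pairs with the same reduction
  have hsame : ∀ z ∈ S, (S.filter fun x => RR l x = RR l z).card = l ^ 16 := by
    intro z hz
    rw [← fiber_card (RR l z)]
    congr 1
    ext x
    rw [Finset.mem_filter, Finset.mem_filter, hmem]
    constructor
    · rintro ⟨_, h⟩; exact ⟨Finset.mem_univ _, h⟩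
    · rintro ⟨_, h⟩; exact ⟨h ▸ (hmem z).1 hz, h⟩
  -- pairs with different reductions
  set P := (S ×ˢ S).filter fun a => RR l a.2 ≠ RR l a.1 with hP
  have hPcard : P.card = S.card * (S.card - l ^ 16) := by
    have h1 : P.card = ∑ z ∈ S, (P.filter fun a => a.1 = z).card := by
      refine Finset.card_eq_sum_card_fiberwise fun a ha => ?_
      rw [Finset.mem_coe, hP, Finset.mem_filter, Finset.mem_product] at ha
      exact ha.1.1
    rw [h1, Finset.sum_congr rfl (g := fun _ => S.card - l ^ 16), Finset.sum_const, smul_eq_mul]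
    intro z hz
    have h2 : (P.filter fun a => a.1 = z).card = (S.filter fun x => ¬ RR l x = RR l z).card := by
      refine Finset.card_bij (fun a _ => a.2) ?_ ?_ ?_
      · intro a ha
        rw [Finset.mem_filter, hP, Finset.mem_filter, Finset.mem_product] at ha
        rw [Finset.mem_filter]
        exact ⟨ha.1.1.2, ha.2 ▸ ha.1.2⟩
      · intro a ha b hb hab
        rw [Finset.mem_filter] at ha hb
        exact Prod.ext (ha.2.trans hb.2.symm) hab
      · intro x hx
        rw [Finset.mem_filter] at hx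
        refine ⟨(z, x), ?_, rfl⟩
        rw [Finset.mem_filter, hP, Finset.mem_filter, Finset.mem_product]
        exact ⟨⟨⟨hz, hx.1⟩, hx.2⟩, rfl⟩
    rw [h2]
    have h3 := Finset.card_filter_add_card_filter_not (s := S) (fun x => RR l x = RR l z)
    rw [hsame z hz] at h3
    omega
  -- the four families
  set T := zeroTriples S with hT
  have hTmem : ∀ t ∈ T, t.1 ∈ S ∧ t.2.1 ∈ S ∧ t.2.2 ∈ S ∧ om (t.2.1 - t.1) (t.2.2 - t.1) = 0 := by
    intro t ht
    rw [hT, zeroTriples, Finset.mem_filter, Finset.mem_product, Finset.mem_product] at ht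
    exact ⟨ht.1.1, ht.1.2.1, ht.1.2.2, ht.2⟩
  set T1 := T.filter fun t => RR l t.2.1 = RR l t.1 ∧ RR l t.2.2 ≠ RR l t.1 with hT1
  set T2 := T.filter fun t => RR l t.2.2 = RR l t.1 ∧ RR l t.2.1 ≠ RR l t.1 with hT2
  set T3 := T.filter fun t => RR l t.2.1 = RR l t.2.2 ∧ RR l t.2.2 ≠ RR l t.1 with hT3
  set T4 := T.filter fun t => RR l t.2.1 = RR l t.1 ∧ RR l t.2.2 = RR l t.1 with hT4
  have hcover : T ⊆ ((T1 ∪ T2) ∪ T3) ∪ T4 := by
    intro t ht
    obtain ⟨h1, h2, h3, h4⟩ := hTmem t ht
    have key : RR l t.2.1 = RR l t.1 ∨ RR l t.2.2 = RR l t.1 ∨ RR l t.2.1 = RR l t.2.2 := by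
      by_contra hcon
      push Not at hcon
      obtain ⟨c1, c2, c3⟩ := hcon
      refine hS₀ _ ((hmem _).1 h1) _ ((hmem _).1 h2) _ ((hmem _).1 h3) (Ne.symm c1) c3
        (Ne.symm c2) ?_
      rw [← map_sub, ← map_sub, ← rho_om, h4, map_zero]
    simp only [Finset.mem_union, hT1, hT2, hT3, hT4, Finset.mem_filter]
    by_cases c1 : RR l t.2.1 = RR l t.1
    · by_cases c2 : RR l t.2.2 = RR l t.1
      · right; exact ⟨ht, c1, c2⟩
      · left; left; left; exact ⟨ht, c1, c2⟩
    · by_cases c2 : RR l t.2.2 = RR l t.1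
      · left; left; right; exact ⟨ht, c2, c1⟩
      · left; right
        refine ⟨ht, ?_, c2⟩
        rcases key with h | h | h
        · exact absurd h c1
        · exact absurd h c2
        · exact h
  have hsubne : ∀ {x y : V (ZMod (l ^ 2))}, RR l x ≠ RR l y → RR l (x - y) ≠ 0 := by
    intro x y h h'
    rw [map_sub, sub_eq_zero] at h'
    exact h h'
  have hc1 : T1.card ≤ l ^ 15 * P.card := by
    refine Finset.card_le_mul_card_image_of_maps_to (f := fun t => (t.1, t.2.2)) ?_ _ ?_
    · intro t ht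
      rw [hT1, Finset.mem_filter] at ht
      obtain ⟨h1, h2, h3, h4⟩ := hTmem t ht.1
      rw [hP, Finset.mem_filter, Finset.mem_product]
      exact ⟨⟨h1, h3⟩, ht.2.2⟩
    · intro b hb
      rw [hP, Finset.mem_filter, Finset.mem_product] at hb
      refine le_trans (Finset.card_le_card_of_injOn (fun t => t.2.1) ?_ ?_)
        (orth_card b.1 (b.2 - b.1) (hsubne hb.2))
      · intro t ht
        rw [Finset.mem_coe, Finset.mem_filter, hT1, Finset.mem_filter] at ht
        obtain ⟨⟨h0, h1, h2⟩, h3⟩ := ht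
        subst h3
        obtain ⟨_, _, _, h4⟩ := hTmem t h0
        rw [Finset.mem_coe, Finset.mem_filter]
        exact ⟨Finset.mem_univ _, h1, h4⟩
      · intro t ht t' ht' heq
        rw [Finset.mem_coe, Finset.mem_filter] at ht ht'
        have e1 := ht.2.trans ht'.2.symm
        obtain ⟨e2, e3⟩ := Prod.mk.inj e1
        exact Prod.ext e2 (Prod.ext heq e3)
  have hc2 : T2.card ≤ l ^ 15 * P.card := by
    refine Finset.card_le_mul_card_image_of_maps_to (f := fun t => (t.1, t.2.1)) ?_ _ ?_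
    · intro t ht
      rw [hT2, Finset.mem_filter] at ht
      obtain ⟨h1, h2, h3, h4⟩ := hTmem t ht.1
      rw [hP, Finset.mem_filter, Finset.mem_product]
      exact ⟨⟨h1, h2⟩, ht.2.2⟩
    · intro b hb
      rw [hP, Finset.mem_filter, Finset.mem_product] at hb
      refine le_trans (Finset.card_le_card_of_injOn (fun t => t.2.2) ?_ ?_)
        (orth_card b.1 (b.2 - b.1) (hsubne hb.2))
      · intro t ht
        rw [Finset.mem_coe, Finset.mem_filter, hT2, Finset.mem_filter] at ht
        obtain ⟨⟨h0, h1, h2⟩, h3⟩ := ht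
        subst h3
        obtain ⟨_, _, _, h4⟩ := hTmem t h0
        rw [Finset.mem_coe, Finset.mem_filter]
        refine ⟨Finset.mem_univ _, h1, ?_⟩
        rw [om_swap, h4, neg_zero]
      · intro t ht t' ht' heq
        rw [Finset.mem_coe, Finset.mem_filter] at ht ht'
        have e1 := ht.2.trans ht'.2.symm
        obtain ⟨e2, e3⟩ := Prod.mk.inj e1
        exact Prod.ext e2 (Prod.ext e3 heq)
  have hc3 : T3.card ≤ l ^ 15 * P.card := by
    refine Finset.card_le_mul_card_image_of_maps_to (f := fun t => (t.1, t.2.2)) ?_ _ ?_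
    · intro t ht
      rw [hT3, Finset.mem_filter] at ht
      obtain ⟨h1, h2, h3, h4⟩ := hTmem t ht.1
      rw [hP, Finset.mem_filter, Finset.mem_product]
      exact ⟨⟨h1, h3⟩, ht.2.2⟩
    · intro b hb
      rw [hP, Finset.mem_filter, Finset.mem_product] at hb
      refine le_trans (Finset.card_le_card_of_injOn (fun t => t.2.1) ?_ ?_)
        (orth_card b.2 (b.2 - b.1) (hsubne hb.2))
      · intro t ht
        rw [Finset.mem_coe, Finset.mem_filter, hT3, Finset.mem_filter] at ht
        obtain ⟨⟨h0, h1, h2⟩, h3⟩ := ht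
        subst h3
        obtain ⟨_, _, _, h4⟩ := hTmem t h0
        rw [Finset.mem_coe, Finset.mem_filter]
        refine ⟨Finset.mem_univ _, h1, ?_⟩
        have e1 : t.2.1 - t.2.2 = (t.2.1 - t.1) - (t.2.2 - t.1) := by abel
        simp only
        rw [e1, om_sub_left, om_self, h4, sub_zero]
      · intro t ht t' ht' heq
        rw [Finset.mem_coe, Finset.mem_filter] at ht ht'
        have e1 := ht.2.trans ht'.2.symm
        obtain ⟨e2, e3⟩ := Prod.mk.inj e1
        exact Prod.ext e2 (Prod.ext heq e3)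
  have hc4 : T4.card ≤ (l ^ 16 * l ^ 16) * S.card := by
    refine Finset.card_le_mul_card_image_of_maps_to (f := fun t => t.1) ?_ _ ?_
    · intro t ht
      rw [hT4, Finset.mem_filter] at ht
      exact (hTmem t ht.1).1
    · intro b hb
      have h1 : (l ^ 16 * l ^ 16) = ((univ.filter fun x : V (ZMod (l ^ 2)) => RR l x = RR l b) ×ˢ
          (univ.filter fun x : V (ZMod (l ^ 2)) => RR l x = RR l b)).card := by
        rw [Finset.card_product, fiber_card]
      rw [h1]
      refine Finset.card_le_card_of_injOn (fun t => t.2) ?_ ?_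
      · intro t ht
        rw [Finset.mem_coe, Finset.mem_filter, hT4, Finset.mem_filter] at ht
        obtain ⟨⟨h0, h5, h6⟩, h3⟩ := ht
        subst h3
        rw [Finset.mem_coe, Finset.mem_product, Finset.mem_filter, Finset.mem_filter]
        exact ⟨⟨Finset.mem_univ _, h5⟩, ⟨Finset.mem_univ _, h6⟩⟩
      · intro t ht t' ht' heq
        rw [Finset.mem_coe, Finset.mem_filter] at ht ht'
        exact Prod.ext (ht.2.trans ht'.2.symm) heq
  have hTc : T.card ≤ 3 * (l ^ 15 * P.card) + (l ^ 16 * l ^ 16) * S.card := by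
    refine (Finset.card_le_card hcover).trans ?_
    refine (Finset.card_union_le _ _).trans ?_
    have h5 := Finset.card_union_le (T1 ∪ T2) T3
    have h6 := Finset.card_union_le T1 T2
    omega
  refine ⟨S, ?_, ?_⟩
  · rw [hScard]
    have h1 : l ^ 17 = l * l ^ 16 := by ring
    rw [h1]
    exact Nat.mul_le_mul_right _ (by omega)
  · obtain ⟨m, hm⟩ : ∃ m, l = m + 11 := ⟨l - 11, by omega⟩
    subst hm
    have hs : S.card = (7 * m + 70) * (m + 11) ^ 16 := by
      have e : 7 * (m + 11 - 1) = 7 * m + 70 := by omega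
      rw [hScard, e]
    have hs2 : S.card - (m + 11) ^ 16 = (7 * m + 69) * (m + 11) ^ 16 := by
      rw [hs]
      have : (7 * m + 70) * (m + 11) ^ 16 = (7 * m + 69) * (m + 11) ^ 16 + (m + 11) ^ 16 := by ring
      omega
    rw [hs2] at hPcard
    calc 2 * (m + 11) ^ 2 * T.card
        ≤ 2 * (m + 11) ^ 2 * (3 * ((m + 11) ^ 15 * P.card) +
            ((m + 11) ^ 16 * (m + 11) ^ 16) * S.card) := Nat.mul_le_mul_left _ hTc
      _ = (2 * (3 * ((7 * m + 70) * (7 * m + 69)) * (m + 11) + (7 * m + 70) * (m + 11) ^ 2)) *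
            (m + 11) ^ 48 := by
          rw [hPcard, hs]; ring
      _ ≤ (7 * m + 70) ^ 3 * (m + 11) ^ 48 := by
          refine Nat.mul_le_mul_right _ ?_
          nlinarith [Nat.zero_le m, mul_nonneg (Nat.zero_le m) (Nat.zero_le m)]
      _ = S.card ^ 3 := by rw [hs]; ring

end Vale.Agent.P036.LB
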