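import Mathlib.Data.ZMod.QuotientRing
import Mathlib.Data.Nat.Prime.Basic
import Mathlib.Algebra.BigOperators.Associated
import Mathlib.Tactic.Ring
import Mathlib.Tactic.LinearCombination
import Mathlib.Tactic.Positivity
import Mathlib.Tactic.GCongr
import Vale.Agent.P036.LB.Basic
import Vale.Agent.P036.LB.B

/-! Block C: Chinese remainder theorem for the local sets. -/

namespace Vale.Agent.P036.LB
open Finset

/-- Chinese remainder equivalence on vectors -/
def crtV (a b : ℕ) (hab : a.Coprime b) : V (ZMod (a * b)) ≃ V (ZMod a) × V (ZMod b) where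
  toFun x := ((fun i => (ZMod.chineseRemainder hab (x.1 i)).1,
      fun i => (ZMod.chineseRemainder hab (x.2 i)).1),
    (fun i => (ZMod.chineseRemainder hab (x.1 i)).2,
      fun i => (ZMod.chineseRemainder hab (x.2 i)).2))
  invFun u := (fun i => (ZMod.chineseRemainder hab).symm (u.1.1 i, u.2.1 i),
    fun i => (ZMod.chineseRemainder hab).symm (u.1.2 i, u.2.2 i))
  left_inv x := by
    ext i
    · simp
    · simp
  right_inv u := by
    ext i <;> simp

theorem crtV_om (a b : ℕ) (hab : a.Coprime b) (z q y : V (ZMod (a * b))) :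
    ZMod.chineseRemainder hab (om (q - z) (y - z)) =
      (om ((crtV a b hab q).1 - (crtV a b hab z).1) ((crtV a b hab y).1 - (crtV a b hab z).1),
        om ((crtV a b hab q).2 - (crtV a b hab z).2)
          ((crtV a b hab y).2 - (crtV a b hab z).2)) := by
  have h1 : ∀ x : ZMod (a * b), (ZMod.chineseRemainder hab x).1 =
      (RingHom.fst (ZMod a) (ZMod b)) ((ZMod.chineseRemainder hab : ZMod (a * b) →+* _) x) :=
    fun _ => rfl
  have h2 : ∀ x : ZMod (a * b), (ZMod.chineseRemainder hab x).2 =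
      (RingHom.snd (ZMod a) (ZMod b)) ((ZMod.chineseRemainder hab : ZMod (a * b) →+* _) x) :=
    fun _ => rfl
  refine Prod.ext ?_ ?_
  · rw [h1]
    simp only [om, crtV, Equiv.coe_fn_mk, dotProduct, Prod.fst_sub, Prod.snd_sub, Pi.sub_apply,
      map_sub, map_sum, map_mul, h1]
  · rw [h2]
    simp only [om, crtV, Equiv.coe_fn_mk, dotProduct, Prod.fst_sub, Prod.snd_sub, Pi.sub_apply,
      map_sub, map_sum, map_mul, h2]

theorem crt_mul (a b : ℕ) [NeZero a] [NeZero b] (hab : a.Coprime b)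
    (S : Finset (V (ZMod a))) (S' : Finset (V (ZMod b))) :
    ∃ S'' : Finset (V (ZMod (a * b))), S''.card = S.card * S'.card ∧
      (zeroTriples S'').card = (zeroTriples S).card * (zeroTriples S').card := by
  obtain ⟨Ψ, hΨ⟩ : ∃ Ψ : V (ZMod (a * b)) ≃ V (ZMod a) × V (ZMod b), Ψ = crtV a b hab := ⟨_, rfl⟩
  have hom : ∀ z q y : V (ZMod (a * b)), om (q - z) (y - z) = 0 ↔
      om ((Ψ q).1 - (Ψ z).1) ((Ψ y).1 - (Ψ z).1) = 0 ∧
        om ((Ψ q).2 - (Ψ z).2) ((Ψ y).2 - (Ψ z).2) = 0 := by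
    intro z q y
    rw [← (ZMod.chineseRemainder hab).map_eq_zero_iff, crtV_om, ← hΨ, Prod.mk_eq_zero]
  refine ⟨(S ×ˢ S').map Ψ.symm.toEmbedding, by rw [Finset.card_map, Finset.card_product], ?_⟩
  have hmem : ∀ x, x ∈ (S ×ˢ S').map Ψ.symm.toEmbedding ↔ (Ψ x).1 ∈ S ∧ (Ψ x).2 ∈ S' := by
    intro x
    rw [Finset.mem_map_equiv, Equiv.symm_symm, Finset.mem_product]
  rw [← Finset.card_product]
  refine Finset.card_bij'
    (fun t _ => (((Ψ t.1).1, (Ψ t.2.1).1, (Ψ t.2.2).1), ((Ψ t.1).2, (Ψ t.2.1).2, (Ψ t.2.2).2)))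
    (fun u _ => (Ψ.symm (u.1.1, u.2.1), Ψ.symm (u.1.2.1, u.2.2.1), Ψ.symm (u.1.2.2, u.2.2.2)))
    ?_ ?_ ?_ ?_
  · intro t ht
    simp only [zeroTriples, Finset.mem_filter, Finset.mem_product] at ht ⊢
    obtain ⟨⟨h1, h2, h3⟩, h4⟩ := ht
    rw [hmem] at h1 h2 h3
    rw [hom] at h4
    exact ⟨⟨⟨h1.1, h2.1, h3.1⟩, h4.1⟩, ⟨⟨h1.2, h2.2, h3.2⟩, h4.2⟩⟩
  · intro u hu
    simp only [zeroTriples, Finset.mem_filter, Finset.mem_product] at hu ⊢
    obtain ⟨⟨⟨h1, h2, h3⟩, h4⟩, ⟨⟨h5, h6, h7⟩, h8⟩⟩ := hu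
    simp only [hmem, hom, Equiv.apply_symm_apply]
    exact ⟨⟨⟨h1, h5⟩, ⟨h2, h6⟩, ⟨h3, h7⟩⟩, h4, h8⟩
  · intro t _
    simp only [Prod.mk.eta, Equiv.symm_apply_apply]
  · intro u _
    simp only [Equiv.apply_symm_apply, Prod.mk.eta]

theorem crt_prod (L : Finset ℕ) (hL : ∀ l ∈ L, l.Prime ∧ 11 ≤ l) :
    ∃ S : Finset (V (ZMod ((∏ l ∈ L, l) ^ 2))), (∏ l ∈ L, l) ^ 17 ≤ S.card ∧
      2 ^ L.card * (∏ l ∈ L, l) ^ 2 * (zeroTriples S).card ≤ S.card ^ 3 := by
  induction L using Finset.induction_on with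
  | empty =>
    refine ⟨{0}, ?_, ?_⟩
    · rw [Finset.card_singleton]; simp
    · refine (Nat.mul_le_mul_left _ (Finset.card_filter_le _ _)).trans ?_
      rw [Finset.card_product, Finset.card_product, Finset.card_singleton]
      simp
  | insert l L hl ih =>
    obtain ⟨hp, h11⟩ := hL l (Finset.mem_insert_self _ _)
    obtain ⟨S', hS1, hS2⟩ := ih fun q hq => hL q (Finset.mem_insert_of_mem hq)
    have : Fact l.Prime := ⟨hp⟩
    obtain ⟨S, h1, h2⟩ := local_lift l h11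
    have hQ : 0 < ∏ l ∈ L, l :=
      Finset.prod_pos fun q hq => (hL q (Finset.mem_insert_of_mem hq)).1.pos
    have : NeZero (l ^ 2) := ⟨by have := hp.pos; positivity⟩
    have : NeZero ((∏ l ∈ L, l) ^ 2) := ⟨by positivity⟩
    have hcop : (l ^ 2).Coprime ((∏ l ∈ L, l) ^ 2) := by
      refine Nat.Coprime.pow _ _ (Nat.Coprime.prod_right fun q hq => ?_)
      refine (Nat.coprime_primes hp (hL q (Finset.mem_insert_of_mem hq)).1).2 ?_
      rintro rfl
      exact hl hq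
    obtain ⟨S'', h3, h4⟩ := crt_mul (l ^ 2) ((∏ l ∈ L, l) ^ 2) hcop S S'
    rw [Finset.prod_insert hl, Finset.card_insert_of_notMem hl, mul_pow l _ 2]
    refine ⟨S'', ?_, ?_⟩
    · rw [h3, mul_pow]
      exact Nat.mul_le_mul h1 hS1
    · rw [h3, h4]
      calc 2 ^ (L.card + 1) * (l ^ 2 * (∏ l ∈ L, l) ^ 2) *
            ((zeroTriples S).card * (zeroTriples S').card)
          = (2 * l ^ 2 * (zeroTriples S).card) *
              (2 ^ L.card * (∏ l ∈ L, l) ^ 2 * (zeroTriples S').card) := by ring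
        _ ≤ S.card ^ 3 * S'.card ^ 3 := Nat.mul_le_mul h2 hS2
        _ = (S.card * S'.card) ^ 3 := by ring

end Vale.Agent.P036.LB
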