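import Mathlib.Data.Int.CardIntervalMod
import Mathlib.Data.ZMod.Basic
import Mathlib.Tactic.Ring
import Mathlib.Tactic.Linarith
import Mathlib.Tactic.FieldSimp
import Vale.Agent.P036.LB.Basic

/-! Block D1: the window, residue classes. -/

namespace Vale.Agent.P036.LB
open Finset

theorem class_count (q : ℕ) (hq : 0 < q) (a : ℤ) (n : ℕ) (hn : q ∣ n) (c : ZMod q) :
    ((Ico a (a + n)).filter fun x : ℤ => (x : ZMod q) = c).card = n / q := by
  obtain ⟨v, rfl⟩ := ZMod.intCast_surjective c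
  obtain ⟨k, rfl⟩ := hn
  have h1 : ((Ico a (a + (q * k : ℕ))).filter fun x : ℤ => (x : ZMod q) = (v : ZMod q)) =
      (Ico a (a + (q * k : ℕ))).filter fun x : ℤ => x ≡ v [ZMOD q] := by
    ext x
    rw [Finset.mem_filter, Finset.mem_filter, ZMod.intCast_eq_intCast_iff]
  rw [h1]
  have h2 := Int.Ico_filter_modEq_card a (a + (q * k : ℕ)) (r := (q : ℤ)) (by exact_mod_cast hq) v
  have h3 : (((a + (q * k : ℕ) : ℤ) : ℚ) - v) / ((q : ℤ) : ℚ) = ((a : ℚ) - v) / ((q : ℤ) : ℚ) + (k : ℤ) := by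
    have : (q : ℚ) ≠ 0 := by exact_mod_cast hq.ne'
    push_cast
    field_simp
    ring
  rw [h3, Int.ceil_add_intCast] at h2
  have h4 : (⌈((a : ℚ) - v) / ((q : ℤ) : ℚ)⌉ + (k : ℤ)) - ⌈((a : ℚ) - v) / ((q : ℤ) : ℚ)⌉ = k := by ring
  rw [h4, max_eq_left (by positivity)] at h2
  rw [Nat.mul_div_cancel_left _ hq]
  exact_mod_cast h2

theorem sq15_bounds {M h : ℕ} (hM : 0 < M) {x : V ℤ} (hx : InW M h x) :
    0 ≤ sq15 x / (32 * M) ∧ 32 * (sq15 x / (32 * M)) ≤ 15 * M := by
  obtain ⟨h1, h2, -, -⟩ := hx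
  have hM' : (0 : ℤ) < M := by exact_mod_cast hM
  have hnn : 0 ≤ sq15 x := by
    exact add_nonneg (Finset.sum_nonneg fun i _ => sq_nonneg _)
      (Finset.sum_nonneg fun i _ => sq_nonneg _)
  have hle : sq15 x ≤ 15 * M * M := by
    unfold sq15
    have e1 : ∑ i, x.1 i ^ 2 ≤ ∑ _i : Fin 8, (M * M : ℤ) := by
      refine Finset.sum_le_sum fun i _ => ?_
      have := h1 i
      nlinarith
    have e2 : ∑ i : Fin 7, x.2 i.castSucc ^ 2 ≤ ∑ _i : Fin 7, (M * M : ℤ) := by
      refine Finset.sum_le_sum fun i _ => ?_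
      have := h2 i
      nlinarith
    simp only [Finset.sum_const, Finset.card_univ, Fintype.card_fin, nsmul_eq_mul] at e1 e2
    push_cast at e1 e2
    nlinarith
  refine ⟨Int.ediv_nonneg hnn (by positivity), ?_⟩
  have h3 : (32 * M) * (sq15 x / (32 * M)) ≤ sq15 x := Int.mul_ediv_self_le (by positivity)
  have h4 : M * (32 * (sq15 x / (32 * M))) ≤ M * (15 * M) := by nlinarith
  exact le_of_mul_le_mul_left h4 hM'

theorem mem_W (M h : ℕ) (hM : 0 < M) (x : V ℤ) : x ∈ W M h ↔ InW M h x := by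
  unfold W
  rw [Finset.mem_filter, Finset.mem_product, Fintype.mem_piFinset, Fintype.mem_piFinset]
  constructor
  · exact fun h => h.2
  · intro hx
    obtain ⟨h5, h6⟩ := sq15_bounds hM hx
    have hx' := hx
    obtain ⟨h1, h2, h3, h4⟩ := hx'
    refine ⟨⟨fun i => ?_, fun i => ?_⟩, hx⟩
    · rw [Finset.mem_Ico]
      exact ⟨(h1 i).1, by have := (h1 i).2; omega⟩
    · rw [Finset.mem_Ico]
      refine Fin.lastCases ?_ (fun j => ?_) i
      · constructor <;> omega
      · exact ⟨(h2 j).1, by have := (h2 j).2; omega⟩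

theorem window_bounds (M h : ℕ) (hM : 0 < M) (hh : 2 * h ≤ M) (x : V ℤ) (hx : x ∈ W M h) :
    (∀ i, 0 ≤ x.1 i ∧ x.1 i < M) ∧ (∀ i, 0 ≤ x.2 i ∧ x.2 i < M) := by
  rw [mem_W M h hM] at hx
  obtain ⟨h5, h6⟩ := sq15_bounds hM hx
  obtain ⟨h1, h2, h3, h4⟩ := hx
  refine ⟨h1, fun i => ?_⟩
  refine Fin.lastCases ?_ (fun j => ?_) i
  · constructor <;> omega
  · exact h2 j

theorem snoc_last' (w : Fin 7 → ℤ) (a : ℤ) : (Fin.snoc w a : Fin 8 → ℤ) (Fin.last 7) = a :=
  Fin.snoc_last (α := fun _ => ℤ) a w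

theorem snoc_castSucc' (w : Fin 7 → ℤ) (a : ℤ) (i : Fin 7) :
    (Fin.snoc w a : Fin 8 → ℤ) i.castSucc = w i :=
  Fin.snoc_castSucc (α := fun _ => ℤ) a w i

theorem window_class (M h q : ℕ) (hq : 0 < q) (hM : q ∣ M) (hM0 : 0 < M) (hh : q ∣ h)
    (c : V (ZMod q)) :
    ((W M h).filter fun x => red q x = c).card = (M / q) ^ 15 * (h / q) := by
  classical
  set A : Finset (Fin 8 → ℤ) := Fintype.piFinset fun i =>
    (Ico (0 : ℤ) (0 + M)).filter fun x : ℤ => (x : ZMod q) = c.1 i with hA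
  set B : Finset (Fin 7 → ℤ) := Fintype.piFinset fun i =>
    (Ico (0 : ℤ) (0 + M)).filter fun x : ℤ => (x : ZMod q) = c.2 i.castSucc with hB
  have hAc : A.card = (M / q) ^ 8 := by
    rw [hA, Fintype.card_piFinset, Finset.prod_congr rfl fun i _ => class_count q hq 0 M hM _,
      Finset.prod_const, Finset.card_univ, Fintype.card_fin]
  have hBc : B.card = (M / q) ^ 7 := by
    rw [hB, Fintype.card_piFinset, Finset.prod_congr rfl fun i _ => class_count q hq 0 M hM _,
      Finset.prod_const, Finset.card_univ, Fintype.card_fin]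
  have hmem : ∀ x : V ℤ, x ∈ (W M h).filter (fun x => red q x = c) ↔
      (x.1, fun i : Fin 7 => x.2 i.castSucc) ∈ A ×ˢ B ∧
        x.2 (Fin.last 7) ∈ (Ico (sq15 x / (32 * M)) (sq15 x / (32 * M) + h)).filter
          fun y : ℤ => (y : ZMod q) = c.2 (Fin.last 7) := by
    intro x
    rw [Finset.mem_filter, mem_W M h hM0, Finset.mem_product, hA, hB, Fintype.mem_piFinset,
      Fintype.mem_piFinset, Finset.mem_filter, Finset.mem_Ico]
    simp only [Finset.mem_filter, Finset.mem_Ico, zero_add]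
    constructor
    · rintro ⟨⟨h1, h2, h3, h4⟩, h5⟩
      have e1 : ∀ i, ((x.1 i : ℤ) : ZMod q) = c.1 i := fun i => by rw [← h5]; rfl
      have e2 : ∀ i, ((x.2 i : ℤ) : ZMod q) = c.2 i := fun i => by rw [← h5]; rfl
      exact ⟨⟨fun i => ⟨h1 i, e1 i⟩, fun i => ⟨h2 i, e2 _⟩⟩, ⟨h3, h4⟩, e2 _⟩
    · rintro ⟨⟨h1, h2⟩, ⟨h3, h4⟩, h5⟩
      refine ⟨⟨fun i => (h1 i).1, fun i => (h2 i).1, h3, h4⟩, ?_⟩
      refine Prod.ext (funext fun i => (h1 i).2) (funext fun i => ?_)
      refine Fin.lastCases ?_ (fun j => ?_) i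
      · exact h5
      · exact (h2 j).2
  have h1 : ((W M h).filter fun x => red q x = c).card = ∑ p ∈ A ×ˢ B,
      (((W M h).filter fun x => red q x = c).filter fun x =>
        (x.1, fun i : Fin 7 => x.2 i.castSucc) = p).card :=
    Finset.card_eq_sum_card_fiberwise fun x hx => ((hmem x).1 hx).1
  rw [h1, Finset.sum_congr rfl (g := fun _ => h / q), Finset.sum_const, Finset.card_product, hAc,
    hBc, smul_eq_mul]
  · ring
  · intro p hp
    have h2 : (((W M h).filter fun x => red q x = c).filter fun x =>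
        (x.1, fun i : Fin 7 => x.2 i.castSucc) = p).card =
        ((Ico ((∑ i, p.1 i ^ 2 + ∑ i : Fin 7, p.2 i ^ 2) / (32 * M))
          ((∑ i, p.1 i ^ 2 + ∑ i : Fin 7, p.2 i ^ 2) / (32 * M) + h)).filter
          fun y : ℤ => (y : ZMod q) = c.2 (Fin.last 7)).card := by
      refine Finset.card_bij' (fun x _ => x.2 (Fin.last 7))
        (fun a _ => (p.1, Fin.snoc p.2 a)) ?_ ?_ ?_ ?_
      · intro x hx
        rw [Finset.mem_filter, hmem] at hx
        obtain ⟨⟨-, h3⟩, h4⟩ := hx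
        subst h4
        exact h3
      · intro a ha
        rw [Finset.mem_filter, hmem]
        have e1 : (fun i : Fin 7 => (Fin.snoc p.2 a : Fin 8 → ℤ) i.castSucc) = p.2 := by
          funext i
          exact Fin.snoc_castSucc (α := fun _ => ℤ) a p.2 i
        have e2 : (Fin.snoc p.2 a : Fin 8 → ℤ) (Fin.last 7) = a := Fin.snoc_last (α := fun _ => ℤ) a p.2
        have e3 : sq15 ((p.1, (Fin.snoc p.2 a : Fin 8 → ℤ)) : V ℤ) =
            ∑ i, p.1 i ^ 2 + ∑ i : Fin 7, p.2 i ^ 2 := by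
          unfold sq15
          simp only [snoc_castSucc']
        refine ⟨⟨?_, ?_⟩, ?_⟩
        · simp only [e1]; exact hp
        · simp only [e3]
          rw [e2]
          exact ha
        · simp only [e1]
      · intro x hx
        rw [Finset.mem_filter] at hx
        obtain ⟨-, h4⟩ := hx
        subst h4
        refine Prod.ext rfl (funext fun i => ?_)
        refine Fin.lastCases ?_ (fun j => ?_) i
        · exact snoc_last' (fun i : Fin 7 => x.2 i.castSucc) _
        · exact snoc_castSucc' (fun i : Fin 7 => x.2 i.castSucc) _ _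
      · intro a _
        exact snoc_last' p.2 a
    rw [h2]
    exact class_count q hq _ h hh _

theorem window_card (M h : ℕ) (hM : 0 < M) : (W M h).card = M ^ 15 * h := by
  have h1 := window_class M h 1 one_pos (one_dvd _) hM (one_dvd _) 0
  rw [Nat.div_one, Nat.div_one] at h1
  rw [← h1]
  congr 1
  rw [Finset.filter_true_of_mem]
  intro x _
  exact Subsingleton.elim _ _

end Vale.Agent.P036.LB
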