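import Mathlib
import Vale.Agent.P036.LB.Basic

/-!
Block D2: few collinear triples in the window.
-/

namespace Vale.Agent.P036.LB
open Finset

namespace D2

/-- first 15 coordinates -/
def hd (x : V ℤ) : Fin 8 ⊕ Fin 7 → ℤ := Sum.elim x.1 (fun i => x.2 i.castSucc)
/-- last coordinate -/
def lst (x : V ℤ) : ℤ := x.2 (Fin.last 7)
/-- all 16 coordinates -/
def co (x : V ℤ) : Fin 8 ⊕ Fin 8 → ℤ := Sum.elim x.1 x.2

theorem co_inj {x y : V ℤ} (h : co x = co y) : x = y := by
  refine Prod.ext (funext fun i => ?_) (funext fun i => ?_)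
  · exact congrFun h (Sum.inl i)
  · exact congrFun h (Sum.inr i)

theorem hd_lst_inj {x y : V ℤ} (h : hd x = hd y) (h' : lst x = lst y) : x = y := by
  refine Prod.ext (funext fun i => ?_) (funext fun i => ?_)
  · exact congrFun h (Sum.inl i)
  · refine Fin.lastCases ?_ (fun i => ?_) i
    · exact h'
    · exact congrFun h (Sum.inr i)

theorem par_co {u v : V ℤ} (h : Par u v) (s t : Fin 8 ⊕ Fin 8) :
    co u s * co v t = co u t * co v s := by
  obtain ⟨h1, h2, h3⟩ := h
  rcases s with i | i <;> rcases t with j | j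
  · exact h1 i j
  · exact h2 i j
  · exact (h2 j i).symm
  · exact h3 i j

theorem co_par {u v : V ℤ} (h : ∀ s t, co u s * co v t = co u t * co v s) : Par u v :=
  ⟨fun i j => h (Sum.inl i) (Sum.inl j), fun i j => h (Sum.inl i) (Sum.inr j),
    fun i j => h (Sum.inr i) (Sum.inr j)⟩

theorem co_sub (u v : V ℤ) (s) : co (u - v) s = co u s - co v s := by
  rcases s with i | i <;> rfl

/-- the dot product -/
def dt (x y : V ℤ) : ℤ := ∑ s, co x s * co y s

theorem dt_sub_right (x y z : V ℤ) : dt x (y - z) = dt x y - dt x z := by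
  simp only [dt, co_sub, mul_sub, Finset.sum_sub_distrib]

theorem dt_comm (x y : V ℤ) : dt x y = dt y x := by
  simp only [dt, mul_comm]

theorem dt_sub_left (x y z : V ℤ) : dt (x - y) z = dt x z - dt y z := by
  rw [dt_comm, dt_sub_right, dt_comm z x, dt_comm z y]

theorem dt_self_nonneg (x : V ℤ) : 0 ≤ dt x x :=
  Finset.sum_nonneg fun _ _ => mul_self_nonneg _

theorem dt_self_eq_zero {x : V ℤ} (h : dt x x = 0) : x = 0 := by
  apply co_inj
  funext s
  have := (Finset.sum_eq_zero_iff_of_nonneg (fun s _ => mul_self_nonneg (co x s))).1 h s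
    (Finset.mem_univ _)
  rcases s with i | i <;> simpa [co] using this

theorem dt_sq {x y : V ℤ} (h : Par x y) : dt x y ^ 2 = dt x x * dt y y := by
  rw [sq, dt, dt, dt, Finset.sum_mul_sum, Finset.sum_mul_sum]
  refine Finset.sum_congr rfl fun s _ => Finset.sum_congr rfl fun t _ => ?_
  have := par_co h s t
  calc co x s * co y s * (co x t * co y t) = co x s * co y t * (co x t * co y s) := by ring
    _ = co x s * co y t * (co x s * co y t) := by rw [this]
    _ = _ := by ring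

/-- among three collinear distinct points one is in the middle -/
theorem middle {x y : V ℤ} (h : Par x y) (hx : x ≠ 0) (hy : y ≠ 0) (hxy : x ≠ y) :
    dt x y < 0 ∨ dt x x - dt x y < 0 ∨ dt y y - dt x y < 0 := by
  by_contra hc
  push Not at hc
  obtain ⟨h1, h2, h3⟩ := hc
  have hA : 0 < dt x x := lt_of_le_of_ne (dt_self_nonneg x) fun e => hx (dt_self_eq_zero e.symm)
  have hB : 0 < dt y y := lt_of_le_of_ne (dt_self_nonneg y) fun e => hy (dt_self_eq_zero e.symm)
  have hC := dt_sq h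
  have e1 : dt x x = dt x y := by nlinarith
  have e2 : dt y y = dt x y := by nlinarith
  apply hxy
  have : dt (x - y) (x - y) = 0 := by
    rw [dt_sub_right, dt_sub_left, dt_sub_left, dt_comm y x]; linarith
  exact sub_eq_zero.1 (dt_self_eq_zero this)

/-- parametrisation of antiparallel pairs -/
theorem antipar {x y : V ℤ} (h : Par x y) (hd' : dt x y < 0) :
    ∃ (g t : ℤ) (e : V ℤ), 0 < g ∧ 0 < t ∧ (∀ s, co x s = -(g * co e s)) ∧
      (∀ s, co y s = t * co e s) := by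
  have hne : ∃ s, co x s ≠ 0 := by
    by_contra hc
    push Not at hc
    have : dt x y = 0 := Finset.sum_eq_zero fun s _ => by rw [hc s, zero_mul]
    omega
  obtain ⟨i, hi⟩ := hne
  have hyi : co y i ≠ 0 := by
    intro h0
    have : dt x y = 0 := Finset.sum_eq_zero fun s _ => by
      have := par_co h i s
      rw [h0, mul_zero] at this
      rcases mul_eq_zero.1 this with h1 | h1
      · exact absurd h1 hi
      · rw [h1, mul_zero]
    omega
  obtain ⟨G, a, b, hg0, hab, ha, hb⟩ : ∃ G a b : ℤ, G ≠ 0 ∧ IsCoprime a b ∧ co x i = G * a ∧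
      co y i = G * b := by
    have hg : Int.gcd (co x i) (co y i) ≠ 0 := by
      intro h0; exact hi (Int.gcd_eq_zero_iff.1 h0).1
    refine ⟨Int.gcd (co x i) (co y i), co x i / Int.gcd (co x i) (co y i),
      co y i / Int.gcd (co x i) (co y i), by exact_mod_cast hg, ?_, ?_, ?_⟩
    · rw [Int.isCoprime_iff_gcd_eq_one]
      exact Int.gcd_ediv_gcd_ediv_gcd (Nat.pos_of_ne_zero hg)
    · exact (Int.mul_ediv_cancel' (Int.gcd_dvd_left ..)).symm
    · exact (Int.mul_ediv_cancel' (Int.gcd_dvd_right ..)).symm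
  have key : ∀ s, a * co y s = b * co x s := by
    intro s
    have := par_co h i s
    rw [ha, hb] at this
    have h2 : G * (a * co y s) = G * (b * co x s) := by linarith
    exact mul_left_cancel₀ hg0 h2
  have ha0 : a ≠ 0 := by intro h0; rw [h0, mul_zero] at ha; exact hi ha
  have hb0 : b ≠ 0 := by intro h0; rw [h0, mul_zero] at hb; exact hyi hb
  have hdv : ∀ s, a ∣ co x s := fun s =>
    hab.dvd_of_dvd_mul_left (Dvd.intro _ (key s))
  choose e he using hdv
  have hey : ∀ s, co y s = b * e s := by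
    intro s
    have := key s
    rw [he s] at this
    have h2 : a * co y s = a * (b * e s) := by linarith
    exact mul_left_cancel₀ ha0 h2
  have hdt : dt x y = a * b * ∑ s, e s * e s := by
    rw [dt, Finset.mul_sum]
    refine Finset.sum_congr rfl fun s _ => ?_
    rw [he s, hey s]; ring
  have hS : 0 ≤ ∑ s, e s * e s := Finset.sum_nonneg fun s _ => mul_self_nonneg _
  have hab' : a * b < 0 := by
    by_contra hc
    push Not at hc
    have : 0 ≤ dt x y := by rw [hdt]; exact mul_nonneg hc hS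
    omega
  let E : V ℤ := (fun i => e (Sum.inl i), fun i => e (Sum.inr i))
  have hE : ∀ s, co E s = e s := fun s => by rcases s with i | i <;> rfl
  rcases lt_or_gt_of_ne ha0 with h1 | h1
  · have h2 : 0 < b := by
      by_contra hc; push Not at hc; nlinarith
    exact ⟨-a, b, E, by omega, h2, fun s => by rw [hE, he s]; ring, fun s => by rw [hE, hey s]⟩
  · have h2 : b < 0 := by
      by_contra hc; push Not at hc; nlinarith
    let E' : V ℤ := (fun i => - e (Sum.inl i), fun i => - e (Sum.inr i))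
    have hE' : ∀ s, co E' s = - e s := fun s => by rcases s with i | i <;> rfl
    exact ⟨a, -b, E', h1, by omega, fun s => by rw [hE', he s]; ring,
      fun s => by rw [hE', hey s]; ring⟩

theorem co_hd (x : V ℤ) (s : Fin 8 ⊕ Fin 7) :
    hd x s = co x (Sum.map id Fin.castSucc s) := by
  rcases s with i | i <;> rfl

theorem co_lst (x : V ℤ) : lst x = co x (Sum.inr (Fin.last 7)) := rfl

theorem sq15_eq (x : V ℤ) : sq15 x = ∑ s, hd x s ^ 2 := by
  rw [sq15, Fintype.sum_sum_type]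
  rfl

/-- the key inequality -/
theorem key_ineq (M h : ℕ) (hM : 0 < M) {m p q : V ℤ} (hm : InW M h m) (hp : InW M h p)
    (hq : InW M h q) {g t : ℤ} {e : V ℤ} (hg : 0 < g) (ht : 0 < t)
    (h1 : ∀ s, co (p - m) s = -(g * co e s)) (h2 : ∀ s, co (q - m) s = t * co e s) :
    g * t * ∑ s, hd e s ^ 2 < 32 * M * h := by
  obtain ⟨-, -, m1, m2⟩ := hm
  obtain ⟨-, -, p1, -⟩ := hp
  obtain ⟨-, -, q1, -⟩ := hq
  have hD : (0:ℤ) < 32 * M := by positivity
  have hp' : ∀ s, co p s = co m s - g * co e s := fun s => by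
    have := h1 s; rw [co_sub] at this; linarith
  have hq' : ∀ s, co q s = co m s + t * co e s := fun s => by
    have := h2 s; rw [co_sub] at this; linarith
  have hQ : t * sq15 p + g * sq15 q = (g + t) * sq15 m + (g + t) * (g * t * ∑ s, hd e s ^ 2) := by
    rw [sq15_eq, sq15_eq, sq15_eq, Finset.mul_sum, Finset.mul_sum, Finset.mul_sum, Finset.mul_sum,
      Finset.mul_sum, ← Finset.sum_add_distrib, ← Finset.sum_add_distrib]
    refine Finset.sum_congr rfl fun s _ => ?_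
    rw [co_hd, co_hd, co_hd, co_hd, hp', hq']
    ring
  have e1 : (32 * (M:ℤ)) * (sq15 m / (32 * M)) ≤ sq15 m := Int.mul_ediv_self_le hD.ne'
  have e2 : sq15 p < (32 * (M:ℤ)) * (sq15 p / (32 * M)) + 32 * M := Int.lt_mul_ediv_self_add hD
  have e3 : sq15 q < (32 * (M:ℤ)) * (sq15 q / (32 * M)) + 32 * M := Int.lt_mul_ediv_self_add hD
  have lp : p.2 (Fin.last 7) = m.2 (Fin.last 7) - g * e.2 (Fin.last 7) :=
    hp' (Sum.inr (Fin.last 7))
  have lq : q.2 (Fin.last 7) = m.2 (Fin.last 7) + t * e.2 (Fin.last 7) :=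
    hq' (Sum.inr (Fin.last 7))
  set D : ℤ := 32 * (M:ℤ) with hDdef
  have a1 : sq15 p < D * p.2 (Fin.last 7) + D := by nlinarith
  have a2 : sq15 q < D * q.2 (Fin.last 7) + D := by nlinarith
  have a3 : D * m.2 (Fin.last 7) + D ≤ sq15 m + D * h := by nlinarith
  have b1 : t * sq15 p + g * sq15 q <
      (g + t) * (D * m.2 (Fin.last 7) + D) := by
    have c1 := mul_lt_mul_of_pos_left a1 ht
    have c2 := mul_lt_mul_of_pos_left a2 hg
    rw [lp] at c1
    rw [lq] at c2
    nlinarith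
  have b2 : (g + t) * (D * m.2 (Fin.last 7) + D) ≤ (g + t) * (sq15 m + D * h) :=
    mul_le_mul_of_nonneg_left a3 (by omega)
  have b3 : (g + t) * (g * t * ∑ s, hd e s ^ 2) < (g + t) * (D * h) := by
    nlinarith
  exact lt_of_mul_lt_mul_left b3 (by omega)

/-- radius -/
def rad (s g t : ℕ) : ℕ := Nat.sqrt (s ^ 2 / (g * t))

/-- the finset of head pairs -/
noncomputable def prs (s : ℕ) : Finset ((Fin 8 ⊕ Fin 7 → ℤ) × (Fin 8 ⊕ Fin 7 → ℤ)) :=
  ((Icc 1 (s ^ 2) ×ˢ Icc 1 (s ^ 2)).filter fun gt : ℕ × ℕ => gt.1 * gt.2 ≤ s ^ 2).biUnion fun gt =>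
    (Fintype.piFinset fun _ => Icc (-(rad s gt.1 gt.2 : ℤ)) (rad s gt.1 gt.2)).image fun e =>
      (fun i => -((gt.1 : ℤ) * e i), fun i => (gt.2 : ℤ) * e i)

theorem sum_tel (R : ℕ) : ∑ g ∈ Icc 1 R, (2:ℝ) / (g * (g + 1)) ≤ 2 := by
  have : ∀ R : ℕ, ∑ g ∈ Icc 1 R, (2:ℝ) / (g * (g + 1)) = 2 - 2 / (R + 1) := by
    intro R
    induction R with
    | zero => simp
    | succ n ih =>
      rw [Finset.sum_Icc_succ_top (by omega), ih]
      push_cast
      field_simp
      ring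
  rw [this]
  have : (0:ℝ) ≤ 2 / (R + 1) := by positivity
  linarith

theorem rad_bound (s g t : ℕ) (hg : 1 ≤ g) (ht : 1 ≤ t) (h : g * t ≤ s ^ 2) :
    ((2 * rad s g t + 1 : ℕ) : ℝ) ^ 15 ≤
      3 ^ 15 * (s:ℝ) ^ 15 * ((2 / (g * (g + 1))) * (2 / (t * (t + 1)))) := by
  have hgt : 0 < g * t := by positivity
  have hr1 : 1 ≤ rad s g t := by
    rw [rad, Nat.le_sqrt]
    exact (Nat.one_le_div_iff hgt).2 h
  have hr2 : rad s g t ^ 2 * (g * t) ≤ s ^ 2 := by
    have h1 : rad s g t ^ 2 ≤ s ^ 2 / (g * t) := Nat.sqrt_le' _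
    exact (Nat.le_div_iff_mul_le hgt).1 h1
  have hr3 : rad s g t ≤ s := by
    have : rad s g t ^ 2 ≤ s ^ 2 := le_trans (Nat.le_mul_of_pos_right _ hgt) hr2
    exact (Nat.pow_le_pow_iff_left (by norm_num)).1 this
  set r := rad s g t
  have hR : (r:ℝ) ^ 15 * ((g:ℝ) ^ 7 * (t:ℝ) ^ 7) ≤ (s:ℝ) ^ 15 := by
    have h1 : ((r:ℝ) ^ 2 * (g * t)) ^ 7 ≤ ((s:ℝ) ^ 2) ^ 7 := by
      refine pow_le_pow_left₀ (by positivity) ?_ 7
      exact_mod_cast hr2
    have h2 : (r:ℝ) ≤ s := by exact_mod_cast hr3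
    calc (r:ℝ) ^ 15 * ((g:ℝ) ^ 7 * (t:ℝ) ^ 7) = r * ((r:ℝ) ^ 2 * (g * t)) ^ 7 := by ring
      _ ≤ s * ((s:ℝ) ^ 2) ^ 7 := mul_le_mul h2 h1 (by positivity) (by positivity)
      _ = _ := by ring
  have hG : ∀ a : ℕ, 1 ≤ a → (1:ℝ) / a ^ 7 ≤ 2 / (a * (a + 1)) := by
    intro a ha
    have ha' : (1:ℝ) ≤ a := by exact_mod_cast ha
    rw [div_le_div_iff₀ (by positivity) (by positivity)]
    have h5 : (1:ℝ) ≤ (a:ℝ) ^ 5 := one_le_pow₀ ha'
    have h2 : (a:ℝ) * (a + 1) ≤ 2 * a ^ 2 := by nlinarith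
    have h7 : (a:ℝ) ^ 2 * 1 ≤ a ^ 2 * a ^ 5 := mul_le_mul_of_nonneg_left h5 (by positivity)
    have h8 : (a:ℝ) ^ 2 * a ^ 5 = a ^ 7 := by ring
    linarith
  have h3 : ((2 * r + 1 : ℕ) : ℝ) ≤ 3 * r := by
    have : (1:ℝ) ≤ r := by exact_mod_cast hr1
    push_cast; linarith
  calc ((2 * r + 1 : ℕ) : ℝ) ^ 15 ≤ (3 * r) ^ 15 := pow_le_pow_left₀ (by positivity) h3 15
    _ = 3 ^ 15 * ((r:ℝ) ^ 15 * ((g:ℝ) ^ 7 * (t:ℝ) ^ 7)) * ((1 / (g:ℝ) ^ 7) * (1 / (t:ℝ) ^ 7)) := by
        have : (g:ℝ) ≠ 0 := by positivity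
        have : (t:ℝ) ≠ 0 := by positivity
        field_simp
    _ ≤ 3 ^ 15 * (s:ℝ) ^ 15 * ((2 / (g * (g + 1))) * (2 / (t * (t + 1)))) := by
        refine mul_le_mul (mul_le_mul_of_nonneg_left hR (by positivity)) ?_ (by positivity)
          (by positivity)
        exact mul_le_mul (hG g hg) (hG t ht) (by positivity) (by positivity)

theorem prs_card (s : ℕ) : (prs s).card ≤ 3 ^ 17 * s ^ 15 := by
  have h1 : (prs s).card ≤ ∑ gt ∈ (Icc 1 (s ^ 2) ×ˢ Icc 1 (s ^ 2)).filter
      (fun gt : ℕ × ℕ => gt.1 * gt.2 ≤ s ^ 2), (2 * rad s gt.1 gt.2 + 1) ^ 15 := by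
    refine Finset.card_biUnion_le.trans (Finset.sum_le_sum fun gt _ => ?_)
    refine Finset.card_image_le.trans ?_
    rw [Fintype.card_piFinset]
    simp only [Int.card_Icc, Finset.prod_const, Finset.card_univ, Fintype.card_sum,
      Fintype.card_fin]
    apply le_of_eq
    congr 1
    omega
  have h2 : ((prs s).card : ℝ) ≤ 3 ^ 17 * (s:ℝ) ^ 15 := by
    calc ((prs s).card : ℝ) ≤ ((∑ gt ∈ (Icc 1 (s ^ 2) ×ˢ Icc 1 (s ^ 2)).filter
          (fun gt : ℕ × ℕ => gt.1 * gt.2 ≤ s ^ 2), (2 * rad s gt.1 gt.2 + 1) ^ 15 : ℕ) : ℝ) := by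
            exact_mod_cast h1
      _ = ∑ gt ∈ (Icc 1 (s ^ 2) ×ˢ Icc 1 (s ^ 2)).filter
          (fun gt : ℕ × ℕ => gt.1 * gt.2 ≤ s ^ 2), ((2 * rad s gt.1 gt.2 + 1 : ℕ) : ℝ) ^ 15 := by
            push_cast; rfl
      _ ≤ ∑ gt ∈ (Icc 1 (s ^ 2) ×ˢ Icc 1 (s ^ 2)).filter
          (fun gt : ℕ × ℕ => gt.1 * gt.2 ≤ s ^ 2),
            3 ^ 15 * (s:ℝ) ^ 15 * ((2 / (gt.1 * (gt.1 + 1))) * (2 / (gt.2 * (gt.2 + 1)))) := by
            refine Finset.sum_le_sum fun gt hgt => ?_
            rw [Finset.mem_filter, Finset.mem_product, Finset.mem_Icc, Finset.mem_Icc] at hgt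
            exact rad_bound s gt.1 gt.2 hgt.1.1.1 hgt.1.2.1 hgt.2
      _ ≤ ∑ gt ∈ (Icc 1 (s ^ 2) ×ˢ Icc 1 (s ^ 2)),
            3 ^ 15 * (s:ℝ) ^ 15 * ((2 / (gt.1 * (gt.1 + 1))) * (2 / (gt.2 * (gt.2 + 1)))) := by
            refine Finset.sum_le_sum_of_subset_of_nonneg (Finset.filter_subset _ _) ?_
            intro i _ _
            positivity
      _ = 3 ^ 15 * (s:ℝ) ^ 15 * ((∑ g ∈ Icc 1 (s ^ 2), (2:ℝ) / (g * (g + 1))) *
            (∑ g ∈ Icc 1 (s ^ 2), (2:ℝ) / (g * (g + 1)))) := by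
            rw [Finset.sum_product, Finset.sum_mul_sum, Finset.mul_sum]
            refine Finset.sum_congr rfl fun g _ => ?_
            rw [Finset.mul_sum]
      _ ≤ 3 ^ 15 * (s:ℝ) ^ 15 * (2 * 2) := by
            refine mul_le_mul_of_nonneg_left ?_ (by positivity)
            exact mul_le_mul (sum_tel _) (sum_tel _)
              (Finset.sum_nonneg fun i _ => by positivity) (by norm_num)
      _ ≤ 3 ^ 17 * (s:ℝ) ^ 15 := by
            have : (0:ℝ) ≤ (s:ℝ) ^ 15 := by positivity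
            nlinarith
  exact_mod_cast h2

theorem inW_of_mem {M h : ℕ} {x : V ℤ} (hx : x ∈ W M h) : InW M h x := (Finset.mem_filter.1 hx).2

theorem sq15_nonneg (x : V ℤ) : 0 ≤ sq15 x := by
  rw [sq15_eq]; exact Finset.sum_nonneg fun s _ => sq_nonneg _

/-- last coordinates lie in `[0, M)` -/
theorem lst_bound {M h : ℕ} (hM : 0 < M) (hh : 2 * h ≤ M) {x : V ℤ} (hx : InW M h x) :
    0 ≤ lst x ∧ lst x < M := by
  obtain ⟨h1, h2, h3, h4⟩ := hx
  have hM' : (0:ℤ) < M := by exact_mod_cast hM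
  have hsq : sq15 x ≤ 15 * (M:ℤ) ^ 2 := by
    rw [sq15]
    have e1 : ∑ i, x.1 i ^ 2 ≤ ∑ _i : Fin 8, (M:ℤ) ^ 2 :=
      Finset.sum_le_sum fun i _ => pow_le_pow_left₀ (h1 i).1 (h1 i).2.le 2
    have e2 : ∑ i : Fin 7, x.2 i.castSucc ^ 2 ≤ ∑ _i : Fin 7, (M:ℤ) ^ 2 :=
      Finset.sum_le_sum fun i _ => pow_le_pow_left₀ (h2 i).1 (h2 i).2.le 2
    simp only [Finset.sum_const, Finset.card_univ, Fintype.card_fin, nsmul_eq_mul] at e1 e2
    push_cast at e1 e2
    linarith
  have h5 : 0 ≤ sq15 x / (32 * M) := Int.ediv_nonneg (sq15_nonneg x) (by positivity)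
  have h6 : (32 * (M:ℤ)) * (sq15 x / (32 * M)) ≤ sq15 x := Int.mul_ediv_self_le (by positivity)
  refine ⟨le_trans h5 h3, ?_⟩
  have h7 : x.2 (Fin.last 7) < sq15 x / (32 * M) + h := h4
  have h8 : (2 * (h:ℤ)) ≤ M := by exact_mod_cast hh
  show x.2 (Fin.last 7) < M
  by_contra hc
  push Not at hc
  have h9 : (M:ℤ) ≤ 2 * (sq15 x / (32 * M)) := by omega
  nlinarith


/-- pairs of points of the window with `m` strictly between them on a line -/
def mid (M h : ℕ) (m : V ℤ) : Finset (V ℤ × V ℤ) :=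
  (W M h ×ˢ W M h).filter fun pq => Par (pq.1 - m) (pq.2 - m) ∧ dt (pq.1 - m) (pq.2 - m) < 0

theorem hd_sub (x y : V ℤ) (i) : hd (x - y) i = hd x i - hd y i := by
  rcases i with i | i <;> rfl

theorem lst_sub (x y : V ℤ) : lst (x - y) = lst x - lst y := rfl

theorem mid_zero (M h : ℕ) (m : V ℤ) :
    ((mid M h m).filter fun pq => hd pq.1 = hd m ∧ hd pq.2 = hd m).card ≤ h ^ 2 := by
  have hc : ((Ico (sq15 m / (32 * M)) (sq15 m / (32 * M) + h)) ×ˢ
      (Ico (sq15 m / (32 * M)) (sq15 m / (32 * M) + h))).card = h ^ 2 := by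
    rw [Finset.card_product, Int.card_Ico, sq]
    have : (sq15 m / (32 * M) + (h:ℤ) - sq15 m / (32 * M)).toNat = h := by
      rw [add_sub_cancel_left]; exact Int.toNat_natCast h
    rw [this]
  rw [← hc]
  refine Finset.card_le_card_of_injOn (fun pq => (lst pq.1, lst pq.2)) ?_ ?_
  · rintro ⟨p, q⟩ hpq
    rw [Finset.mem_coe, Finset.mem_filter, mid, Finset.mem_filter, Finset.mem_product] at hpq
    obtain ⟨⟨⟨hp, hq⟩, -⟩, e1, e2⟩ := hpq
    have hp' := inW_of_mem hp
    have hq' := inW_of_mem hq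
    have s1 : sq15 p = sq15 m := by rw [sq15_eq, sq15_eq]; simp only at e1; rw [e1]
    have s2 : sq15 q = sq15 m := by rw [sq15_eq, sq15_eq]; simp only at e2; rw [e2]
    rw [Finset.mem_coe, Finset.mem_product, Finset.mem_Ico, Finset.mem_Ico]
    refine ⟨⟨?_, ?_⟩, ?_, ?_⟩
    · rw [← s1]; exact hp'.2.2.1
    · rw [← s1]; exact hp'.2.2.2
    · rw [← s2]; exact hq'.2.2.1
    · rw [← s2]; exact hq'.2.2.2
  · rintro ⟨p, q⟩ hpq ⟨p', q'⟩ hpq' he
    rw [Finset.mem_coe, Finset.mem_filter] at hpq hpq'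
    obtain ⟨-, e1, e2⟩ := hpq
    obtain ⟨-, e1', e2'⟩ := hpq'
    simp only [Prod.mk.injEq] at he e1 e2 e1' e2' ⊢
    exact ⟨hd_lst_inj (e1.trans e1'.symm) he.1, hd_lst_inj (e2.trans e2'.symm) he.2⟩

theorem mid_ne (M h s : ℕ) (hM : 0 < M) (hh : 2 * h ≤ M)
    (hs : 32 * M * (h + 1) ≤ s ^ 2) {m : V ℤ} (hm : m ∈ W M h) :
    ((mid M h m).filter fun pq => ¬ (hd pq.1 = hd m ∧ hd pq.2 = hd m)).card ≤
      3 ^ 17 * s ^ 15 * (2 * M + 1) := by
  have hc : (prs s ×ˢ Icc (-(M:ℤ)) M).card ≤ 3 ^ 17 * s ^ 15 * (2 * M + 1) := by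
    rw [Finset.card_product, Int.card_Icc]
    have : ((M:ℤ) + 1 - -(M:ℤ)).toNat = 2 * M + 1 := by omega
    rw [this]
    exact Nat.mul_le_mul_right _ (prs_card s)
  refine le_trans ?_ hc
  have hpar : ∀ p q : V ℤ, (p, q) ∈ ((mid M h m).filter
      fun pq => ¬ (hd pq.1 = hd m ∧ hd pq.2 = hd m)) →
      InW M h p ∧ InW M h q ∧ Par (p - m) (q - m) ∧ ∃ (g t : ℤ) (e : V ℤ), 0 < g ∧ 0 < t ∧
        (∀ s, co (p - m) s = -(g * co e s)) ∧ (∀ s, co (q - m) s = t * co e s) ∧
          (∃ i, hd e i ≠ 0) := by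
    intro p q hpq
    rw [Finset.mem_filter, mid, Finset.mem_filter, Finset.mem_product] at hpq
    obtain ⟨⟨⟨hp, hq⟩, hP, hlt⟩, hne⟩ := hpq
    obtain ⟨g, t, e, hg, ht, h1, h2⟩ := antipar hP hlt
    refine ⟨inW_of_mem hp, inW_of_mem hq, hP, g, t, e, hg, ht, h1, h2, ?_⟩
    by_contra hc
    push Not at hc
    apply hne
    constructor
    · funext i
      have e1 := h1 (Sum.map id Fin.castSucc i)
      simp only at e1
      rw [← co_hd, ← co_hd, hc i, hd_sub, mul_zero, neg_zero] at e1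
      exact sub_eq_zero.1 e1
    · funext i
      have e1 := h2 (Sum.map id Fin.castSucc i)
      simp only at e1
      rw [← co_hd, ← co_hd, hc i, hd_sub, mul_zero] at e1
      exact sub_eq_zero.1 e1
  refine Finset.card_le_card_of_injOn
    (fun pq => ((hd (pq.1 - m), hd (pq.2 - m)), lst (pq.1 - m))) ?_ ?_
  · rintro ⟨p, q⟩ hpq
    obtain ⟨hp, hq, hP, g, t, e, hg, ht, h1, h2, i0, hi0⟩ := hpar p q hpq
    have hkey := key_ineq M h hM (inW_of_mem hm) hp hq hg ht h1 h2
    have hs' : (32 * (M:ℤ) * (h + 1)) ≤ (s:ℤ) ^ 2 := by exact_mod_cast hs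
    have hM' : (0:ℤ) < M := by exact_mod_cast hM
    have hlt : g * t * ∑ i, hd e i ^ 2 < (s:ℤ) ^ 2 := by nlinarith
    have hone : ∀ i, hd e i ^ 2 ≤ ∑ i, hd e i ^ 2 := fun i =>
      Finset.single_le_sum (f := fun i => hd e i ^ 2) (fun i _ => sq_nonneg _) (Finset.mem_univ i)
    have hgt : 0 < g * t := mul_pos hg ht
    obtain ⟨g', rfl⟩ := Int.eq_ofNat_of_zero_le hg.le
    obtain ⟨t', rfl⟩ := Int.eq_ofNat_of_zero_le ht.le
    have hei : ∀ i, (hd e i).natAbs ≤ rad s g' t' := by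
      intro i
      rw [rad, Nat.le_sqrt']
      have hpos : 0 < g' * t' := by exact_mod_cast hgt
      rw [Nat.le_div_iff_mul_le hpos]
      zify
      rw [sq_abs]
      have := mul_le_mul_of_nonneg_left (hone i) hgt.le
      nlinarith
    have hsum1 : 1 ≤ ∑ i, hd e i ^ 2 := by
      refine le_trans ?_ (hone i0)
      have : 0 < hd e i0 ^ 2 := by positivity
      omega
    have hgts : g' * t' ≤ s ^ 2 := by
      zify
      nlinarith
    have hg1 : 1 ≤ g' := by exact_mod_cast hg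
    have ht1 : 1 ≤ t' := by exact_mod_cast ht
    rw [Finset.mem_coe, Finset.mem_product]
    constructor
    · rw [prs, Finset.mem_biUnion]
      refine ⟨(g', t'), ?_, ?_⟩
      · rw [Finset.mem_filter, Finset.mem_product, Finset.mem_Icc, Finset.mem_Icc]
        exact ⟨⟨⟨hg1, le_trans (Nat.le_mul_of_pos_right _ ht1) hgts⟩, ht1,
          le_trans (Nat.le_mul_of_pos_left _ hg1) hgts⟩, hgts⟩
      · rw [Finset.mem_image]
        refine ⟨hd e, ?_, ?_⟩
        · rw [Fintype.mem_piFinset]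
          intro i
          have := hei i
          simp only [Finset.mem_Icc]
          constructor <;> omega
        · refine Prod.ext (funext fun i => ?_) (funext fun i => ?_)
          · have := h1 (Sum.map id Fin.castSucc i)
            rw [← co_hd, ← co_hd] at this
            exact this.symm
          · have := h2 (Sum.map id Fin.castSucc i)
            rw [← co_hd, ← co_hd] at this
            exact this.symm
    · have b1 := lst_bound hM hh hp
      have b2 := lst_bound hM hh (inW_of_mem hm)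
      simp only [lst_sub, Finset.mem_Icc]
      constructor <;> omega
  · rintro ⟨p, q⟩ hpq ⟨p', q'⟩ hpq' he
    obtain ⟨hp, hq, hP, g, t, e, hg, ht, h1, h2, i0, hi0⟩ := hpar p q hpq
    obtain ⟨hp', hq', hP', -⟩ := hpar p' q' hpq'
    simp only [Prod.mk.injEq] at he
    obtain ⟨⟨he1, he2⟩, he3⟩ := he
    have hpp : p - m = p' - m := hd_lst_inj he1 he3
    have hqq : q - m = q' - m := by
      refine hd_lst_inj he2 ?_
      have hne : hd (p - m) i0 ≠ 0 := by
        have := h1 (Sum.map id Fin.castSucc i0)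
        rw [← co_hd, ← co_hd] at this
        rw [this]
        exact neg_ne_zero.2 (mul_ne_zero hg.ne' hi0)
      have a1 := par_co hP (Sum.map id Fin.castSucc i0) (Sum.inr (Fin.last 7))
      have a2 := par_co hP' (Sum.map id Fin.castSucc i0) (Sum.inr (Fin.last 7))
      rw [← co_hd, ← co_hd, ← co_lst, ← co_lst] at a1 a2
      rw [← he1, ← he2, ← he3] at a2
      exact mul_left_cancel₀ hne (a1.trans a2.symm)
    exact Prod.ext (sub_left_injective hpp) (sub_left_injective hqq)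

theorem mid_card (M h s : ℕ) (hM : 0 < M) (hh : 2 * h ≤ M)
    (hs : 32 * M * (h + 1) ≤ s ^ 2) {m : V ℤ} (hm : m ∈ W M h) :
    (mid M h m).card ≤ 3 ^ 17 * (2 * M + 1) * s ^ 15 + h ^ 2 := by
  classical
  rw [← Finset.card_filter_add_card_filter_not (s := mid M h m)
    (fun pq : V ℤ × V ℤ => hd pq.1 = hd m ∧ hd pq.2 = hd m)]
  have h1 := mid_zero M h m
  have h2 := mid_ne M h s hM hh hs hm
  have h3 : 3 ^ 17 * s ^ 15 * (2 * M + 1) = 3 ^ 17 * (2 * M + 1) * s ^ 15 := by ring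
  rw [h3] at h2
  omega

end D2

open D2 in
theorem window_collinear (M h s : ℕ) (hM : 0 < M) (hh : 2 * h ≤ M)
    (hs : 32 * M * (h + 1) ≤ s ^ 2) :
    (colTriples (W M h)).card ≤ 3 * (W M h).card * (3 ^ 17 * (2 * M + 1) * s ^ 15 + h ^ 2) := by
  set K := 3 ^ 17 * (2 * M + 1) * s ^ 15 + h ^ 2 with hK
  let U1 := (W M h).biUnion fun m => (mid M h m).image fun pq => (m, pq.1, pq.2)
  let U2 := (W M h).biUnion fun m => (mid M h m).image fun pq => (pq.1, m, pq.2)
  let U3 := (W M h).biUnion fun m => (mid M h m).image fun pq => (pq.1, pq.2, m)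
  have c1 : U1.card ≤ (W M h).card * K :=
    Finset.card_biUnion_le_card_mul _ _ _ fun m hm =>
      Finset.card_image_le.trans (mid_card M h s hM hh hs hm)
  have c2 : U2.card ≤ (W M h).card * K :=
    Finset.card_biUnion_le_card_mul _ _ _ fun m hm =>
      Finset.card_image_le.trans (mid_card M h s hM hh hs hm)
  have c3 : U3.card ≤ (W M h).card * K :=
    Finset.card_biUnion_le_card_mul _ _ _ fun m hm =>
      Finset.card_image_le.trans (mid_card M h s hM hh hs hm)
  have hsub : colTriples (W M h) ⊆ U1 ∪ U2 ∪ U3 := by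
    rintro ⟨a, b, c⟩ ht
    rw [colTriples, Finset.mem_filter, Finset.mem_product, Finset.mem_product] at ht
    obtain ⟨⟨ha, hb, hc⟩, hab, hbc, hac, hP⟩ := ht
    simp only at ha hb hc hab hbc hac hP
    have hx : b - a ≠ 0 := sub_ne_zero.2 hab.symm
    have hy : c - a ≠ 0 := sub_ne_zero.2 hac.symm
    have hxy : b - a ≠ c - a := fun e => hbc (sub_left_injective e)
    have hco := par_co hP
    simp only [co_sub] at hco
    rw [Finset.mem_union, Finset.mem_union]
    rcases middle hP hx hy hxy with h1 | h1 | h1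
    · left; left
      rw [Finset.mem_biUnion]
      refine ⟨a, ha, Finset.mem_image.2 ⟨(b, c), ?_, rfl⟩⟩
      rw [mid, Finset.mem_filter, Finset.mem_product]
      exact ⟨⟨hb, hc⟩, hP, h1⟩
    · left; right
      rw [Finset.mem_biUnion]
      refine ⟨b, hb, Finset.mem_image.2 ⟨(a, c), ?_, rfl⟩⟩
      rw [mid, Finset.mem_filter, Finset.mem_product]
      refine ⟨⟨ha, hc⟩, co_par fun s t => ?_, ?_⟩
      · simp only [co_sub]
        have := hco s t
        linear_combination -this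
      · simp only [dt_sub_left, dt_sub_right] at h1 ⊢
        have e1 := dt_comm a b
        have e2 := dt_comm a c
        have e3 := dt_comm b c
        linarith
    · right
      rw [Finset.mem_biUnion]
      refine ⟨c, hc, Finset.mem_image.2 ⟨(a, b), ?_, rfl⟩⟩
      rw [mid, Finset.mem_filter, Finset.mem_product]
      refine ⟨⟨ha, hb⟩, co_par fun s t => ?_, ?_⟩
      · simp only [co_sub]
        have := hco s t
        linear_combination this
      · simp only [dt_sub_left, dt_sub_right] at h1 ⊢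
        have e1 := dt_comm a b
        have e2 := dt_comm a c
        have e3 := dt_comm b c
        linarith
  calc (colTriples (W M h)).card ≤ (U1 ∪ U2 ∪ U3).card := Finset.card_le_card hsub
    _ ≤ U1.card + U2.card + U3.card :=
        (Finset.card_union_le _ _).trans (Nat.add_le_add_right (Finset.card_union_le _ _) _)
    _ ≤ (W M h).card * K + (W M h).card * K + (W M h).card * K := by omega
    _ = 3 * (W M h).card * K := by ring

end Vale.Agent.P036.LB

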