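import Mathlib
import Vale.Agent.P036.LB.Basic

/-!
Block E: the number of integer 2 by 2 matrices with entries in `[-T, T]` and given determinant.
-/

namespace Vale.Agent.P036.LB
open Finset

namespace E

/-- sup norm -/
def mx (u : ℤ × ℤ) : ℕ := max u.1.natAbs u.2.natAbs
/-- gcd of the two coordinates -/
def gd (u : ℤ × ℤ) : ℕ := Int.gcd u.1 u.2
/-- the box -/
noncomputable def B (T : ℕ) : Finset (ℤ × ℤ) := Icc (-(T:ℤ)) T ×ˢ Icc (-(T:ℤ)) T

theorem prog (T m : ℕ) (hm : 0 < m) (S : Finset ℤ) (hS : ∀ x ∈ S, -(T:ℤ) ≤ x ∧ x ≤ T)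
    (hd : ∀ x ∈ S, ∀ y ∈ S, (m:ℤ) ∣ x - y) : S.card ≤ 2 * T / m + 1 := by
  rcases S.eq_empty_or_nonempty with rfl | hne
  · simp
  · obtain ⟨x0, h0, hle⟩ : ∃ x0 ∈ S, ∀ x ∈ S, x0 ≤ x :=
      ⟨S.min' hne, S.min'_mem hne, fun x hx => S.min'_le x hx⟩
    have hc : S.card ≤ (Finset.Icc (0:ℤ) ((2 * T / m : ℕ) : ℤ)).card := by
      refine Finset.card_le_card_of_injOn (fun x => (x - x0) / (m:ℤ)) ?_ ?_
      · intro x hx
        rw [Finset.mem_coe] at hx
        rw [Finset.mem_coe, Finset.mem_Icc]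
        constructor
        · exact Int.ediv_nonneg (by have := hle x hx; omega) (by positivity)
        · push_cast
          apply Int.ediv_le_ediv (by exact_mod_cast hm)
          have := hS x hx
          have := hS x0 h0
          omega
      · intro x hx y hy hxy
        rw [Finset.mem_coe] at hx hy
        have e1 := Int.ediv_mul_cancel (hd x hx x0 h0)
        have e2 := Int.ediv_mul_cancel (hd y hy x0 h0)
        simp only at hxy
        rw [hxy] at e1
        omega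
    rw [Int.card_Icc] at hc
    generalize 2 * T / m = q at hc ⊢
    omega

theorem line (T : ℕ) (a b c : ℤ) (ha : a ≠ 0) (F : Finset (ℤ × ℤ))
    (h1 : ∀ v ∈ F, -(T:ℤ) ≤ v.1 ∧ v.1 ≤ T) (h2 : ∀ v ∈ F, a * v.2 - b * v.1 = c) :
    (F.card : ℝ) ≤ 2 * T * ((Int.gcd a b : ℝ) / a.natAbs) + 1 := by
  have hg : 0 < Int.gcd a b := Int.gcd_pos_of_ne_zero_left b ha
  obtain ⟨m, hm⟩ : Int.gcd a b ∣ a.natAbs := Int.gcd_dvd_natAbs_left a b
  obtain ⟨a', ha'⟩ : (Int.gcd a b : ℤ) ∣ a := Int.gcd_dvd_left ..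
  obtain ⟨b', hb'⟩ : (Int.gcd a b : ℤ) ∣ b := Int.gcd_dvd_right ..
  have hgab : Int.gcd a b = Int.gcd a b * Int.gcd a' b' := by
    generalize hG : Int.gcd a b = G at ha' hb'
    have h3 : Int.gcd ((G:ℤ) * a') ((G:ℤ) * b') = G := by rw [← ha', ← hb', hG]
    rw [Int.gcd_mul_left, Int.natAbs_natCast] at h3
    exact h3.symm
  generalize Int.gcd a b = G at *
  have hm0 : 0 < m := by
    rcases Nat.eq_zero_or_pos m with h0 | h0
    · rw [h0, mul_zero] at hm; exact absurd (Int.natAbs_eq_zero.1 hm) ha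
    · exact h0
  have hinj : Set.InjOn Prod.fst (F : Set (ℤ × ℤ)) := by
    intro v hv w hw hvw
    have e1 := h2 v hv
    have e2 := h2 w hw
    refine Prod.ext hvw ?_
    rw [hvw] at e1
    have : a * v.2 = a * w.2 := by linarith
    exact mul_left_cancel₀ ha this
  have hcard : (F.image Prod.fst).card = F.card := Finset.card_image_of_injOn hinj
  have hp : (F.image Prod.fst).card ≤ 2 * T / m + 1 := by
    refine prog T m hm0 _ ?_ ?_
    · intro x hx
      obtain ⟨v, hv, rfl⟩ := Finset.mem_image.1 hx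
      exact h1 v hv
    · intro x hx y hy
      obtain ⟨v, hv, rfl⟩ := Finset.mem_image.1 hx
      obtain ⟨w, hw, rfl⟩ := Finset.mem_image.1 hy
      have e1 := h2 v hv
      have e2 := h2 w hw
      have hcop : IsCoprime a' b' := by
        rw [Int.isCoprime_iff_gcd_eq_one]
        exact Nat.eq_of_mul_eq_mul_left hg (by rw [← hgab, mul_one])
      have hma : (m:ℤ) ∣ a' := by
        rw [← Int.natAbs_dvd_natAbs, Int.natAbs_natCast]
        have : a.natAbs = G * a'.natAbs := by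
          rw [ha', Int.natAbs_mul, Int.natAbs_natCast]
        rw [hm] at this
        exact dvd_of_eq (Nat.eq_of_mul_eq_mul_left hg this)
      refine dvd_trans hma (hcop.dvd_of_dvd_mul_left ?_)
      have hg0 : (G : ℤ) ≠ 0 := by exact_mod_cast hg.ne'
      refine ⟨v.2 - w.2, mul_left_cancel₀ hg0 ?_⟩
      have e3 : b * (v.1 - w.1) = a * (v.2 - w.2) := by linarith
      calc (G : ℤ) * (b' * (v.1 - w.1)) = (G * b') * (v.1 - w.1) := by ring
        _ = (G * a') * (v.2 - w.2) := by rw [← hb', ← ha', e3]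
        _ = _ := by ring
  have hR : (F.card : ℝ) ≤ ((2 * T / m : ℕ) : ℝ) + 1 := by
    rw [← hcard]; exact_mod_cast hp
  have hR2 : ((2 * T / m : ℕ) : ℝ) ≤ 2 * T * ((G : ℝ) / a.natAbs) := by
    refine Nat.cast_div_le.trans ?_
    rw [hm]
    push_cast
    have h1 : (m:ℝ) ≠ 0 := by positivity
    have h2 : (G : ℝ) ≠ 0 := by positivity
    apply le_of_eq
    field_simp
  linarith

theorem fiber (T : ℕ) (c : ℤ) (u : ℤ × ℤ) (hu : u ≠ 0) :
    (((B T).filter fun v => u.1 * v.2 - u.2 * v.1 = c).card : ℝ) ≤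
      2 * T * ((gd u : ℝ) / mx u) + 1 := by
  have hB : ∀ v ∈ B T, (-(T:ℤ) ≤ v.1 ∧ v.1 ≤ T) ∧ (-(T:ℤ) ≤ v.2 ∧ v.2 ≤ T) := by
    intro v hv
    rw [B, Finset.mem_product, Finset.mem_Icc, Finset.mem_Icc] at hv
    exact hv
  rcases le_total u.2.natAbs u.1.natAbs with h | h
  · have h1 : u.1 ≠ 0 := by
      intro h0
      rw [h0] at h
      apply hu
      refine Prod.ext h0 ?_
      simpa using h
    have hm : mx u = u.1.natAbs := max_eq_left h
    rw [hm, gd]
    refine line T u.1 u.2 c h1 _ ?_ ?_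
    · intro v hv
      exact (hB v (Finset.mem_filter.1 hv).1).1
    · intro v hv
      exact (Finset.mem_filter.1 hv).2
  · have h1 : u.2 ≠ 0 := by
      intro h0
      rw [h0] at h
      apply hu
      refine Prod.ext ?_ h0
      simpa using h
    have hm : mx u = u.2.natAbs := max_eq_right h
    have hcd : (((B T).filter fun v => u.1 * v.2 - u.2 * v.1 = c).image Prod.swap).card =
        ((B T).filter fun v => u.1 * v.2 - u.2 * v.1 = c).card :=
      Finset.card_image_of_injective _ Prod.swap_injective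
    rw [hm, gd, ← hcd]
    have := line T (-u.2) (-u.1) c (neg_ne_zero.2 h1)
      (((B T).filter fun v => u.1 * v.2 - u.2 * v.1 = c).image Prod.swap) ?_ ?_
    · rw [Int.gcd_neg, Int.neg_gcd, Int.natAbs_neg, Int.gcd_comm] at this
      exact this
    · intro v hv
      obtain ⟨w, hw, rfl⟩ := Finset.mem_image.1 hv
      exact (hB w (Finset.mem_filter.1 hw).1).2
    · intro v hv
      obtain ⟨w, hw, rfl⟩ := Finset.mem_image.1 hv
      have := (Finset.mem_filter.1 hw).2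
      simp only [Prod.fst_swap, Prod.snd_swap]
      linarith

theorem shell (d k : ℕ) (hd : 0 < d) (hk : 0 < k) (F : Finset (ℤ × ℤ))
    (hF : ∀ u ∈ F, mx u = k ∧ (d:ℤ) ∣ u.1 ∧ (d:ℤ) ∣ u.2) :
    (F.card : ℝ) * ((d:ℝ) / k) ≤ if d ∣ k then 8 else 0 := by
  split_ifs with hdk
  · obtain ⟨m, rfl⟩ := hdk
    have hm : m ≠ 0 := by rintro rfl; simp at hk
    have hsub : F ⊆ (Finset.box m : Finset (ℤ × ℤ)).image fun w => ((d:ℤ) * w.1, (d:ℤ) * w.2) := by
      intro u hu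
      obtain ⟨h1, ⟨x, hx⟩, ⟨y, hy⟩⟩ := hF u hu
      rw [Finset.mem_image]
      refine ⟨(x, y), ?_, Prod.ext hx.symm hy.symm⟩
      rw [Int.mem_box]
      rw [mx, hx, hy, Int.natAbs_mul, Int.natAbs_mul, Int.natAbs_natCast, Nat.mul_max_mul_left] at h1
      exact Nat.eq_of_mul_eq_mul_left hd h1
    have hc : F.card ≤ 8 * m := by
      refine (Finset.card_le_card hsub).trans (Finset.card_image_le.trans ?_)
      rw [Int.card_box hm]
    have hc' : (F.card : ℝ) ≤ 8 * m := by exact_mod_cast hc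
    have hd' : (0:ℝ) < d := by exact_mod_cast hd
    have hm' : (0:ℝ) < m := by exact_mod_cast Nat.pos_of_ne_zero hm
    push_cast
    calc (F.card : ℝ) * ((d:ℝ) / (d * m)) ≤ (8 * m) * ((d:ℝ) / (d * m)) :=
          mul_le_mul_of_nonneg_right hc' (by positivity)
      _ = 8 := by field_simp
  · have : F = ∅ := by
      rw [Finset.eq_empty_iff_forall_notMem]
      intro u hu
      obtain ⟨h1, h2, h3⟩ := hF u hu
      apply hdk
      rw [← h1, mx]
      rcases le_total u.1.natAbs u.2.natAbs with h | h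
      · rw [max_eq_right h]; exact Int.natCast_dvd.1 h3
      · rw [max_eq_left h]; exact Int.natCast_dvd.1 h2
    rw [this]
    simp

theorem mx_mem {T : ℕ} {u : ℤ × ℤ} (hu : u ∈ (B T).erase 0) : mx u ∈ Icc 1 T := by
  rw [Finset.mem_erase, B, Finset.mem_product, Finset.mem_Icc, Finset.mem_Icc] at hu
  obtain ⟨h0, h1, h2⟩ := hu
  rw [Finset.mem_Icc, mx]
  have : u.1 ≠ 0 ∨ u.2 ≠ 0 := by
    by_contra hc
    push Not at hc
    exact h0 (Prod.ext hc.1 hc.2)
  constructor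
  · rcases this with h | h
    · exact le_max_of_le_left (Int.natAbs_pos.2 h)
    · exact le_max_of_le_right (Int.natAbs_pos.2 h)
  · apply max_le <;> omega

theorem gd_mem {T : ℕ} {u : ℤ × ℤ} (hu : u ∈ (B T).erase 0) : gd u ∈ Icc 1 T := by
  have h1 := mx_mem hu
  rw [Finset.mem_Icc] at h1 ⊢
  have h0 : u.1 ≠ 0 ∨ u.2 ≠ 0 := by
    by_contra hc
    push Not at hc
    exact (Finset.mem_erase.1 hu).1 (Prod.ext hc.1 hc.2)
  have hle : gd u ≤ mx u := by
    rw [gd, mx]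
    rcases h0 with h | h
    · exact le_max_of_le_left (Nat.le_of_dvd (Int.natAbs_pos.2 h) (Int.gcd_dvd_natAbs_left ..))
    · exact le_max_of_le_right (Nat.le_of_dvd (Int.natAbs_pos.2 h) (Int.gcd_dvd_natAbs_right ..))
  refine ⟨?_, hle.trans h1.2⟩
  rw [gd]
  rcases h0 with h | h
  · exact Int.gcd_pos_of_ne_zero_left _ h
  · exact Int.gcd_pos_of_ne_zero_right _ h

theorem sum_gd (T : ℕ) : ∑ u ∈ (B T).erase 0, (gd u : ℝ) / mx u ≤ 8 * T * (1 + Real.log T) := by
  calc ∑ u ∈ (B T).erase 0, (gd u : ℝ) / mx u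
      ≤ ∑ u ∈ (B T).erase 0, ∑ d ∈ Icc 1 T,
          if (d:ℤ) ∣ u.1 ∧ (d:ℤ) ∣ u.2 then (d:ℝ) / mx u else 0 := by
        refine Finset.sum_le_sum fun u hu => ?_
        have h1 : (gd u : ℝ) / mx u =
            if ((gd u : ℕ):ℤ) ∣ u.1 ∧ ((gd u : ℕ) :ℤ) ∣ u.2 then ((gd u : ℕ) : ℝ) / mx u else 0 := by
          rw [if_pos ⟨Int.gcd_dvd_left .., Int.gcd_dvd_right ..⟩]
        rw [h1]
        refine Finset.single_le_sum
          (f := fun d : ℕ => if (d:ℤ) ∣ u.1 ∧ (d:ℤ) ∣ u.2 then (d:ℝ) / mx u else 0) ?_ (gd_mem hu)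
        intro d _
        split_ifs <;> positivity
    _ = ∑ d ∈ Icc 1 T, ∑ u ∈ (B T).erase 0,
          (if (d:ℤ) ∣ u.1 ∧ (d:ℤ) ∣ u.2 then (d:ℝ) / mx u else 0) := Finset.sum_comm
    _ ≤ ∑ d ∈ Icc 1 T, ∑ k ∈ Icc 1 T, (if d ∣ k then (8:ℝ) else 0) := by
        refine Finset.sum_le_sum fun d hd => ?_
        rw [← Finset.sum_fiberwise_of_maps_to (g := mx) (t := Icc 1 T) (fun u hu => mx_mem hu)]
        refine Finset.sum_le_sum fun k hk => ?_
        rw [Finset.mem_Icc] at hd hk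
        rw [← Finset.sum_filter]
        have h1 : ∀ u ∈ (((B T).erase 0).filter fun u => mx u = k).filter
            (fun u => (d:ℤ) ∣ u.1 ∧ (d:ℤ) ∣ u.2), (d:ℝ) / mx u = (d:ℝ) / k := by
          intro u hu
          rw [(Finset.mem_filter.1 (Finset.mem_filter.1 hu).1).2]
        rw [Finset.sum_congr rfl h1, Finset.sum_const, nsmul_eq_mul]
        refine shell d k hd.1 hk.1 _ ?_
        intro u hu
        exact ⟨(Finset.mem_filter.1 (Finset.mem_filter.1 hu).1).2, (Finset.mem_filter.1 hu).2⟩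
    _ = ∑ d ∈ Icc 1 T, 8 * ((T / d : ℕ) : ℝ) := by
        refine Finset.sum_congr rfl fun d _ => ?_
        rw [← Finset.sum_filter, Finset.sum_const, nsmul_eq_mul, mul_comm]
        congr 2
        have : Icc 1 T = Ioc 0 T := by ext x; simp only [Finset.mem_Icc, Finset.mem_Ioc]; omega
        rw [this]
        exact Nat.Ioc_filter_dvd_card_eq_div T d
    _ ≤ ∑ d ∈ Icc 1 T, 8 * (T * (d:ℝ)⁻¹) := by
        refine Finset.sum_le_sum fun d _ => ?_
        refine mul_le_mul_of_nonneg_left ?_ (by norm_num)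
        rw [← div_eq_mul_inv]
        exact Nat.cast_div_le
    _ = 8 * T * ((harmonic T : ℚ) : ℝ) := by
        rw [harmonic_eq_sum_Icc]
        push_cast
        rw [Finset.mul_sum]
        refine Finset.sum_congr rfl fun d _ => ?_
        ring
    _ ≤ 8 * T * (1 + Real.log T) :=
        mul_le_mul_of_nonneg_left (harmonic_le_one_add_log T) (by positivity)

theorem card_B (T : ℕ) : (B T).card = (2 * T + 1) ^ 2 := by
  rw [B, Finset.card_product, Int.card_Icc, sq]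
  have : ((T:ℤ) + 1 - -(T:ℤ)).toNat = 2 * T + 1 := by omega
  rw [this]

end E

open E in
theorem det_count (T : ℕ) (hT : 1 ≤ T) (c : ℤ) :
    ((((Icc (-(T:ℤ)) T ×ˢ Icc (-(T:ℤ)) T) ×ˢ (Icc (-(T:ℤ)) T ×ˢ Icc (-(T:ℤ)) T)).filter
      fun t : (ℤ × ℤ) × (ℤ × ℤ) => t.1.1 * t.2.2 - t.1.2 * t.2.1 = c).card : ℝ)
      ≤ 33 * (T:ℝ) ^ 2 * (1 + Real.log T) := by
  change (((B T ×ˢ B T).filter
      fun t : (ℤ × ℤ) × (ℤ × ℤ) => t.1.1 * t.2.2 - t.1.2 * t.2.1 = c).card : ℝ) ≤ _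
  have h0 : ((B T ×ˢ B T).filter
      fun t : (ℤ × ℤ) × (ℤ × ℤ) => t.1.1 * t.2.2 - t.1.2 * t.2.1 = c).card =
      ∑ u ∈ B T, ((B T).filter fun v => u.1 * v.2 - u.2 * v.1 = c).card := by
    simp only [Finset.card_filter]
    rw [Finset.sum_product]
  have hz : (0 : ℤ × ℤ) ∈ B T := by
    rw [B, Finset.mem_product, Finset.mem_Icc]
    simp
  rw [h0]
  push_cast
  rw [← Finset.add_sum_erase _ _ hz]
  have h1 : (((B T).filter fun v : ℤ × ℤ => (0 : ℤ × ℤ).1 * v.2 - (0 : ℤ × ℤ).2 * v.1 = c).card : ℝ)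
      ≤ (2 * T + 1) ^ 2 := by
    have := (Finset.card_filter_le (B T)
      (fun v : ℤ × ℤ => (0 : ℤ × ℤ).1 * v.2 - (0 : ℤ × ℤ).2 * v.1 = c)).trans (card_B T).le
    exact_mod_cast this
  have h2 : ∑ u ∈ (B T).erase 0, (((B T).filter fun v => u.1 * v.2 - u.2 * v.1 = c).card : ℝ) ≤
      2 * T * (8 * T * (1 + Real.log T)) + ((2 * T + 1) ^ 2 - 1) := by
    calc ∑ u ∈ (B T).erase 0, (((B T).filter fun v => u.1 * v.2 - u.2 * v.1 = c).card : ℝ)
        ≤ ∑ u ∈ (B T).erase 0, (2 * T * ((gd u : ℝ) / mx u) + 1) := by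
          refine Finset.sum_le_sum fun u hu => fiber T c u (Finset.mem_erase.1 hu).1
      _ = 2 * T * ∑ u ∈ (B T).erase 0, ((gd u : ℝ) / mx u) + ((B T).erase 0).card := by
          rw [Finset.sum_add_distrib, Finset.mul_sum, Finset.sum_const, nsmul_eq_mul, mul_one]
      _ ≤ 2 * T * (8 * T * (1 + Real.log T)) + ((2 * T + 1) ^ 2 - 1) := by
          refine add_le_add (mul_le_mul_of_nonneg_left (sum_gd T) (by positivity)) ?_
          rw [Finset.card_erase_of_mem hz, card_B, Nat.cast_sub (Nat.one_le_pow _ _ (by omega))]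
          push_cast
          exact le_rfl
  have hT' : (1:ℝ) ≤ T := by exact_mod_cast hT
  have hlog : 0 ≤ Real.log T := Real.log_nonneg hT'
  have h3 : 8 * (T:ℝ) + 1 ≤ 9 * T ^ 2 := by nlinarith
  have h4 : 17 * (T:ℝ) ^ 2 ≤ 17 * T ^ 2 * (1 + Real.log T) := by
    have : 0 ≤ 17 * (T:ℝ) ^ 2 * Real.log T := by positivity
    linarith
  nlinarith

end Vale.Agent.P036.LB
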