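import Vale.Agent.P036.LB.Basic
import Mathlib.LinearAlgebra.FiniteDimensional.Lemmas
import Mathlib.LinearAlgebra.Matrix.ToLin
import Mathlib.FieldTheory.Finiteness
import Mathlib.LinearAlgebra.Dimension.Constructions
import Mathlib.Algebra.Field.ZMod
import Mathlib.Tactic

/-!
Block F: counting symmetric matrices with one or two prescribed values, over any finite field.
-/

namespace Vale.Agent.P036.LB

open Finset Module

section gen

variable {k : Type*} [Field k] {ι : Type*} [Fintype ι] [DecidableEq ι]

/-- symmetric matrices as a submodule -/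
def symS (k : Type*) [Field k] (ι : Type*) [Fintype ι] : Submodule k (Matrix ι ι k) where
  carrier := {A | A.transpose = A}
  add_mem' := by
    intro A B hA hB
    simp only [Set.mem_ofPred_eq] at *
    rw [Matrix.transpose_add, hA, hB]
  zero_mem' := by simp
  smul_mem' := by
    intro c A hA
    simp only [Set.mem_ofPred_eq] at *
    rw [Matrix.transpose_smul, hA]

omit [DecidableEq ι] in
theorem mem_symS {A : Matrix ι ι k} : A ∈ symS k ι ↔ A.transpose = A := Iff.rfl

/-- fibres of a linear map between finite spaces -/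
theorem card_fiber_le {E F : Type*} [AddCommGroup E] [Module k E] [AddCommGroup F] [Module k F]
    [Finite k] [FiniteDimensional k E] [FiniteDimensional k F] (L : E →ₗ[k] F) (y : F) (r : ℕ)
    (hr : r ≤ finrank k (LinearMap.range L)) :
    Nat.card {x : E // L x = y} * Nat.card k ^ r ≤ Nat.card E := by
  have hE : Finite E := Module.finite_of_finite k
  have h1 : Nat.card {x : E // L x = y} ≤ Nat.card (LinearMap.ker L) := by
    by_cases hne : Nonempty {x : E // L x = y}
    · obtain ⟨x₀, hx₀⟩ := hne
      refine Nat.card_le_card_of_injective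
        (fun x => (⟨x.1 - x₀, by rw [LinearMap.mem_ker, map_sub, x.2, hx₀, sub_self]⟩ :
          LinearMap.ker L)) ?_
      intro a b hab
      have := congrArg Subtype.val hab
      simp only [sub_left_inj] at this
      exact Subtype.ext this
    · rw [not_nonempty_iff] at hne
      simp
  have h2 : Nat.card (LinearMap.ker L) = Nat.card k ^ finrank k (LinearMap.ker L) :=
    Module.natCard_eq_pow_finrank
  have h3 : Nat.card E = Nat.card k ^ finrank k E := Module.natCard_eq_pow_finrank
  have h4 := LinearMap.finrank_range_add_finrank_ker L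
  have hk : 0 < Nat.card k := Nat.card_pos
  calc Nat.card {x : E // L x = y} * Nat.card k ^ r
      ≤ Nat.card k ^ finrank k (LinearMap.ker L) * Nat.card k ^ r := by
        rw [← h2]; exact Nat.mul_le_mul_right _ h1
    _ = Nat.card k ^ (finrank k (LinearMap.ker L) + r) := by rw [pow_add]
    _ ≤ Nat.card k ^ finrank k E := Nat.pow_le_pow_right hk (by omega)
    _ = Nat.card E := h3.symm

/-- the evaluation map on symmetric matrices -/
def evS (x x' : ι → k) : symS k ι →ₗ[k] (ι → k) × (ι → k) where
  toFun A := (A.1.mulVec x, A.1.mulVec x')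
  map_add' A B := by
    simp [Matrix.add_mulVec]
  map_smul' c A := by
    simp [Matrix.smul_mulVec]

/-- the compatibility functional -/
def compat (x x' : ι → k) : ((ι → k) × (ι → k)) →ₗ[k] k where
  toFun y := x' ⬝ᵥ y.1 - x ⬝ᵥ y.2
  map_add' y z := by
    simp only [Prod.fst_add, Prod.snd_add, dotProduct_add]; ring
  map_smul' c y := by
    simp only [Prod.smul_fst, Prod.smul_snd, dotProduct_smul, smul_eq_mul, RingHom.id_apply]; ring

omit [DecidableEq ι] in
/-- a symmetric matrix with two prescribed values, given dual vectors -/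
theorem exists_sym (x x' e e' y y' : ι → k) (h11 : e ⬝ᵥ x = 1) (h12 : e ⬝ᵥ x' = 0)
    (h21 : e' ⬝ᵥ x = 0) (h22 : e' ⬝ᵥ x' = 1) (hc : x' ⬝ᵥ y = x ⬝ᵥ y') :
    ∃ A : Matrix ι ι k, A.transpose = A ∧ A.mulVec x = y ∧ A.mulVec x' = y' := by
  have hc' : y ⬝ᵥ x' = y' ⬝ᵥ x := by rw [dotProduct_comm y, dotProduct_comm y', hc]
  refine ⟨Matrix.vecMulVec y e + Matrix.vecMulVec e y + Matrix.vecMulVec y' e' +
    Matrix.vecMulVec e' y' - (y ⬝ᵥ x) • Matrix.vecMulVec e e -
    (y' ⬝ᵥ x) • (Matrix.vecMulVec e' e + Matrix.vecMulVec e e') -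
    (y' ⬝ᵥ x') • Matrix.vecMulVec e' e', ?_, ?_, ?_⟩
  · ext i j
    simp only [Matrix.transpose_apply, Matrix.sub_apply, Matrix.add_apply, Matrix.smul_apply,
      Matrix.vecMulVec_apply, smul_eq_mul]
    ring
  · ext i
    simp only [Matrix.sub_mulVec, Matrix.add_mulVec, Matrix.smul_mulVec, Pi.sub_apply,
      Pi.add_apply, Pi.smul_apply, Matrix.vecMulVec_mulVec, MulOpposite.smul_eq_mul_unop, MulOpposite.unop_op,
      smul_eq_mul, h11, h21]
    ring
  · ext i
    simp only [Matrix.sub_mulVec, Matrix.add_mulVec, Matrix.smul_mulVec, Pi.sub_apply,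
      Pi.add_apply, Pi.smul_apply, Matrix.vecMulVec_mulVec, MulOpposite.smul_eq_mul_unop, MulOpposite.unop_op,
      smul_eq_mul, h12, h22, hc']
    ring

theorem exists_dual (x x' : ι → k) (i j : ι) (hx : x i * x' j - x j * x' i ≠ 0) :
    ∃ e e' : ι → k, e ⬝ᵥ x = 1 ∧ e ⬝ᵥ x' = 0 ∧ e' ⬝ᵥ x = 0 ∧ e' ⬝ᵥ x' = 1 := by
  set δ := x i * x' j - x j * x' i with hδ
  refine ⟨Pi.single i (x' j / δ) - Pi.single j (x' i / δ),
    Pi.single j (x i / δ) - Pi.single i (x j / δ), ?_, ?_, ?_, ?_⟩
  · simp only [sub_dotProduct, single_dotProduct]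
    field_simp
    rw [hδ]; ring
  · simp only [sub_dotProduct, single_dotProduct]
    field_simp
    ring
  · simp only [sub_dotProduct, single_dotProduct]
    field_simp
    ring
  · simp only [sub_dotProduct, single_dotProduct]
    field_simp
    rw [hδ]

variable [Fintype k] [DecidableEq k]

/-- the finset of symmetric matrices -/
def symF (k : Type*) [Field k] [Fintype k] [DecidableEq k] (ι : Type*) [Fintype ι]
    [DecidableEq ι] : Finset (Matrix ι ι k) :=
  Finset.univ.filter fun A => A.transpose = A

theorem card_symF : (symF k ι).card = Nat.card (symS k ι) := by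
  have h : Nat.card (symS k ι) = Nat.card {A : Matrix ι ι k // A.transpose = A} :=
    Nat.card_congr (Equiv.subtypeEquivRight fun A => mem_symS)
  rw [h, Nat.card_eq_fintype_card, Fintype.card_subtype, symF]

theorem card_filter_symF (q : Matrix ι ι k → Prop) [DecidablePred q] :
    ((symF k ι).filter q).card = Nat.card {A : symS k ι // q A.1} := by
  have h1 : Nat.card {A : symS k ι // q A.1} =
      Nat.card {A : Matrix ι ι k // A.transpose = A ∧ q A} :=
    Nat.card_congr
      { toFun := fun A => ⟨A.1.1, A.1.2, A.2⟩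
        invFun := fun A => ⟨⟨A.1, A.2.1⟩, A.2.2⟩
        left_inv := fun _ => rfl
        right_inv := fun _ => rfl }
  rw [h1, Nat.card_eq_fintype_card, Fintype.card_subtype]
  congr 1
  ext A
  simp [symF]

/-- number of symmetric matrices with one prescribed value -/
theorem symF_count_one (x y : ι → k) (hx : x ≠ 0) :
    ((symF k ι).filter fun A => A.mulVec x = y).card * Fintype.card k ^ Fintype.card ι ≤
      (symF k ι).card := by
  obtain ⟨i, hi⟩ : ∃ i, x i ≠ 0 := by
    by_contra h
    push Not at h
    exact hx (funext h)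
  set L : symS k ι →ₗ[k] (ι → k) := (LinearMap.fst k _ _).comp (evS x x) with hL
  have hsurj : Function.Surjective L := by
    intro y
    set e : ι → k := Pi.single i (x i)⁻¹ with he
    have hex : e ⬝ᵥ x = 1 := by
      rw [he, single_dotProduct, inv_mul_cancel₀ hi]
    refine ⟨⟨Matrix.vecMulVec y e + Matrix.vecMulVec e y - (y ⬝ᵥ x) • Matrix.vecMulVec e e, ?_⟩, ?_⟩
    · rw [mem_symS]
      ext a b
      simp only [Matrix.transpose_apply, Matrix.sub_apply, Matrix.add_apply, Matrix.smul_apply,
        Matrix.vecMulVec_apply, smul_eq_mul]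
      ring
    · ext a
      simp only [hL, LinearMap.comp_apply, LinearMap.fst_apply, evS, LinearMap.coe_mk,
        AddHom.coe_mk, Matrix.sub_mulVec, Matrix.add_mulVec, Matrix.smul_mulVec, Pi.sub_apply,
        Pi.add_apply, Pi.smul_apply, Matrix.vecMulVec_mulVec, MulOpposite.smul_eq_mul_unop,
        MulOpposite.unop_op, smul_eq_mul, hex]
      ring
  have hr : Fintype.card ι ≤ finrank k (LinearMap.range L) := by
    rw [LinearMap.range_eq_top.2 hsurj, finrank_top, Module.finrank_fintype_fun_eq_card]
  have h := card_fiber_le L y _ hr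
  rw [card_filter_symF, card_symF, ← Nat.card_eq_fintype_card (α := k)]
  exact h

/-- number of symmetric matrices with two prescribed values -/
theorem symF_count_two (x y x' y' : ι → k) (i j : ι) (hx : x i * x' j - x j * x' i ≠ 0) :
    ((symF k ι).filter fun A => A.mulVec x = y ∧ A.mulVec x' = y').card *
      Fintype.card k ^ (2 * Fintype.card ι - 1) ≤ (symF k ι).card := by
  obtain ⟨e, e', h11, h12, h21, h22⟩ := exists_dual x x' i j hx
  have hker : LinearMap.ker (compat x x') ≤ LinearMap.range (evS x x') := by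
    intro z hz
    rw [LinearMap.mem_ker] at hz
    have hc : x' ⬝ᵥ z.1 = x ⬝ᵥ z.2 := sub_eq_zero.1 hz
    obtain ⟨A, hA, h1, h2⟩ := exists_sym x x' e e' z.1 z.2 h11 h12 h21 h22 hc
    exact ⟨⟨A, hA⟩, Prod.ext h1 h2⟩
  have h1 := LinearMap.finrank_range_add_finrank_ker (compat x x')
  have h2 : finrank k (LinearMap.range (compat x x')) ≤ 1 := by
    have := Submodule.finrank_le (LinearMap.range (compat x x'))
    rwa [Module.finrank_self] at this
  have h3 : finrank k ((ι → k) × (ι → k)) = 2 * Fintype.card ι := by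
    rw [Module.finrank_prod, Module.finrank_fintype_fun_eq_card]; ring
  have h4 := Submodule.finrank_mono hker
  have hr : 2 * Fintype.card ι - 1 ≤ finrank k (LinearMap.range (evS x x')) := by omega
  have h := card_fiber_le (evS x x') (y, y') _ hr
  rw [card_filter_symF, card_symF, ← Nat.card_eq_fintype_card (α := k)]
  have h5 : Nat.card {A : symS k ι // A.1.mulVec x = y ∧ A.1.mulVec x' = y'} =
      Nat.card {A : symS k ι // evS x x' A = (y, y')} :=
    Nat.card_congr (Equiv.subtypeEquivRight fun A => by
      simp [evS, Prod.ext_iff])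
  rw [h5]
  exact h

end gen

/-- general dimension over `ZMod p`, one condition -/
theorem sym_count_one_gen (p m : ℕ) [Fact p.Prime] (x y : Fin m → ZMod p) (hx : x ≠ 0) :
    ((Finset.univ.filter fun A : Matrix (Fin m) (Fin m) (ZMod p) => A.transpose = A).filter
      fun A => A.mulVec x = y).card * p ^ m ≤
    (Finset.univ.filter fun A : Matrix (Fin m) (Fin m) (ZMod p) => A.transpose = A).card := by
  have h := symF_count_one (k := ZMod p) (ι := Fin m) x y hx
  rw [ZMod.card, Fintype.card_fin] at h
  exact h

/-- general dimension over `ZMod p`, two independent conditions -/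
theorem sym_count_two_gen (p m : ℕ) [Fact p.Prime] (x y x' y' : Fin m → ZMod p)
    (i j : Fin m) (hx : x i * x' j - x j * x' i ≠ 0) :
    ((Finset.univ.filter fun A : Matrix (Fin m) (Fin m) (ZMod p) => A.transpose = A).filter
      fun A => A.mulVec x = y ∧ A.mulVec x' = y').card * p ^ (2 * m - 1) ≤
    (Finset.univ.filter fun A : Matrix (Fin m) (Fin m) (ZMod p) => A.transpose = A).card := by
  have h := symF_count_two (k := ZMod p) (ι := Fin m) x y x' y' i j hx
  rw [ZMod.card, Fintype.card_fin] at h
  exact h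

theorem sym_count_one (p : ℕ) [Fact p.Prime] (x y : Fin 9 → ZMod p) (hx : x ≠ 0) :
    ((Sym p).filter fun A => A.mulVec x = y).card * p ^ 9 ≤ (Sym p).card :=
  sym_count_one_gen p 9 x y hx

theorem sym_count_two (p : ℕ) [Fact p.Prime] (x y x' y' : Fin 9 → ZMod p)
    (i j : Fin 9) (hx : x i * x' j - x j * x' i ≠ 0) :
    ((Sym p).filter fun A => A.mulVec x = y ∧ A.mulVec x' = y').card * p ^ 17
      ≤ (Sym p).card :=
  sym_count_two_gen p 9 x y x' y' i j hx

end Vale.Agent.P036.LB
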