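import Mathlib.Data.Finset.Card
import Mathlib.Data.Finset.Prod
import Mathlib.Algebra.BigOperators.Group.Finset.Basic
import Mathlib.Algebra.Order.BigOperators.Group.Finset
import Mathlib.Algebra.BigOperators.Ring.Finset
import Mathlib.Data.Fintype.Pi
import Mathlib.Data.Fintype.BigOperators
import Mathlib.Tactic

/-!
Block G: the alteration lemma.
-/

namespace Vale.Agent.P036.LB

open Finset

/-- deterministic alteration: remove one point from each bad triple -/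
theorem remove_bad {X : Type*} [DecidableEq X] (Z : Finset X) (bad : Finset (X × X × X))
    (n : ℕ) (h : n + bad.card ≤ Z.card) :
    ∃ Y ⊆ Z, Y.card = n ∧ ∀ t ∈ bad, ¬ (t.1 ∈ Y ∧ t.2.1 ∈ Y ∧ t.2.2 ∈ Y) := by
  have h1 : n ≤ (Z \ bad.image Prod.fst).card := by
    have h2 := Finset.le_card_sdiff (bad.image Prod.fst) Z
    have h3 : (bad.image Prod.fst).card ≤ bad.card := Finset.card_image_le
    omega
  obtain ⟨Y, hY, hYc⟩ := Finset.exists_subset_card_eq h1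
  refine ⟨Y, hY.trans Finset.sdiff_subset, hYc, fun t ht hh => ?_⟩
  have := hY hh.1
  rw [Finset.mem_sdiff] at this
  exact this.2 (Finset.mem_image_of_mem _ ht)

/-- number of colourings which are `0` on `s` -/
theorem card_col {α : Type*} [Fintype α] [DecidableEq α] (K : ℕ) (s : Finset α) :
    (univ.filter fun c : α → Fin (K + 1) => ∀ x ∈ s, c x = 0).card * (K + 1) ^ s.card =
      (K + 1) ^ Fintype.card α := by
  have h1 : (univ.filter fun c : α → Fin (K + 1) => ∀ x ∈ s, c x = 0) =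
      Fintype.piFinset (fun x => if x ∈ s then {0} else univ) := by
    ext c
    simp only [mem_filter, mem_univ, true_and, Fintype.mem_piFinset]
    constructor
    · intro h x
      by_cases hx : x ∈ s
      · simp [hx, h x hx]
      · simp [hx]
    · intro h x hx
      have := h x
      simpa [hx] using this
  rw [h1, Fintype.card_piFinset]
  have h2 : (K + 1) ^ s.card = ∏ x : α, (if x ∈ s then (K + 1) else 1) := by
    rw [Finset.prod_ite_mem, Finset.univ_inter, Finset.prod_const]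
  rw [h2, ← Finset.prod_mul_distrib]
  calc ∏ x : α, ((if x ∈ s then ({0} : Finset (Fin (K + 1))) else univ).card *
        (if x ∈ s then (K + 1) else 1)) = ∏ _x : α, (K + 1) := by
        refine Finset.prod_congr rfl fun x _ => ?_
        by_cases hx : x ∈ s <;> simp [hx]
    _ = _ := by simp

/-- alteration for a single set -/
theorem alteration_one {X : Type*} [DecidableEq X] (Z : Finset X) (bad : Finset (X × X × X))
    (hb : ∀ t ∈ bad, t.1 ∈ Z ∧ t.2.1 ∈ Z ∧ t.2.2 ∈ Z)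
    (hbad : ∀ t ∈ bad, t.1 ≠ t.2.1 ∧ t.2.1 ≠ t.2.2 ∧ t.1 ≠ t.2.2)
    (K n : ℕ) (hK : 0 < K) (h : n * K ^ 3 + bad.card ≤ K ^ 2 * Z.card) :
    ∃ Y ⊆ Z, Y.card = n ∧ ∀ t ∈ bad, ¬ (t.1 ∈ Y ∧ t.2.1 ∈ Y ∧ t.2.2 ∈ Y) := by
  obtain ⟨K, rfl⟩ : ∃ K', K = K' + 1 := ⟨K - 1, by omega⟩
  classical
  set N := Fintype.card {x // x ∈ Z} with hN
  have hNZ : N = Z.card := by simp [hN]
  -- colour classes
  let cls : ({x // x ∈ Z} → Fin (K + 1)) → Finset X := fun c =>
    (univ.filter fun x : {x // x ∈ Z} => c x = 0).map (Function.Embedding.subtype _)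
  have hclsZ : ∀ c, cls c ⊆ Z := by
    intro c x hx
    simp only [cls, mem_map, mem_filter, mem_univ, true_and, Function.Embedding.subtype_apply] at hx
    obtain ⟨y, -, rfl⟩ := hx
    exact y.2
  have hmem : ∀ c (x : X) (hx : x ∈ Z), x ∈ cls c ↔ c ⟨x, hx⟩ = 0 := by
    intro c x hx
    simp only [cls, mem_map, mem_filter, mem_univ, true_and, Function.Embedding.subtype_apply]
    constructor
    · rintro ⟨y, hy, hyx⟩
      have : y = ⟨x, hx⟩ := Subtype.ext hyx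
      rwa [← this]
    · intro h
      exact ⟨⟨x, hx⟩, h, rfl⟩
  let bd : ({x // x ∈ Z} → Fin (K + 1)) → Finset (X × X × X) := fun c =>
    bad.filter fun t => t.1 ∈ cls c ∧ t.2.1 ∈ cls c ∧ t.2.2 ∈ cls c
  have hS1 : (∑ c, (cls c).card) * (K + 1) = N * (K + 1) ^ N := by
    have h1 : ∑ c, (cls c).card =
        ∑ x : {x // x ∈ Z}, (univ.filter fun c : {x // x ∈ Z} → Fin (K + 1) => c x = 0).card := by
      simp only [cls, card_map, card_filter]
      rw [Finset.sum_comm]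
    rw [h1, Finset.sum_mul]
    have h2 : ∀ x : {x // x ∈ Z}, (univ.filter fun c : {x // x ∈ Z} → Fin (K + 1) =>
        c x = 0).card * (K + 1) = (K + 1) ^ N := by
      intro x
      have := card_col K {x}
      rw [card_singleton, pow_one] at this
      rw [hN, ← this]
      congr 2
      ext c
      simp
    rw [Finset.sum_congr rfl fun x _ => h2 x]
    simp [hN]
  have hS2 : (∑ c, (bd c).card) * (K + 1) ^ 3 = bad.card * (K + 1) ^ N := by
    have h1 : ∑ c, (bd c).card = ∑ t ∈ bad, (univ.filter fun c : {x // x ∈ Z} → Fin (K + 1) =>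
        t.1 ∈ cls c ∧ t.2.1 ∈ cls c ∧ t.2.2 ∈ cls c).card := by
      simp only [bd, card_filter]
      rw [Finset.sum_comm]
    rw [h1, Finset.sum_mul]
    have h2 : ∀ t ∈ bad, (univ.filter fun c : {x // x ∈ Z} → Fin (K + 1) =>
        t.1 ∈ cls c ∧ t.2.1 ∈ cls c ∧ t.2.2 ∈ cls c).card * (K + 1) ^ 3 = (K + 1) ^ N := by
      intro t ht
      obtain ⟨m1, m2, m3⟩ := hb t ht
      obtain ⟨n1, n2, n3⟩ := hbad t ht
      have hc3 : ({⟨t.1, m1⟩, ⟨t.2.1, m2⟩, ⟨t.2.2, m3⟩} : Finset {x // x ∈ Z}).card = 3 :=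
        Finset.card_eq_three.2 ⟨⟨t.1, m1⟩, ⟨t.2.1, m2⟩, ⟨t.2.2, m3⟩,
          fun h => n1 (congrArg Subtype.val h), fun h => n3 (congrArg Subtype.val h),
          fun h => n2 (congrArg Subtype.val h), rfl⟩
      have := card_col K ({⟨t.1, m1⟩, ⟨t.2.1, m2⟩, ⟨t.2.2, m3⟩} : Finset {x // x ∈ Z})
      rw [hc3] at this
      rw [hN, ← this]
      congr 2
      ext c
      simp [hmem c t.1 m1, hmem c t.2.1 m2, hmem c t.2.2 m3]
    rw [Finset.sum_congr rfl h2]
    simp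
  -- some colouring is good
  obtain ⟨c, hc⟩ : ∃ c, n + (bd c).card ≤ (cls c).card := by
    by_contra hcon
    push Not at hcon
    have h1 : ∑ c, ((cls c).card + 1) ≤
        ∑ c : {x // x ∈ Z} → Fin (K + 1), (n + (bd c).card) :=
      Finset.sum_le_sum fun c _ => hcon c
    rw [Finset.sum_add_distrib, Finset.sum_add_distrib] at h1
    simp only [Finset.sum_const, Finset.card_univ, Fintype.card_pi, Finset.prod_const,
      Fintype.card_fin, smul_eq_mul, mul_one] at h1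
    rw [← hN] at h1
    have h2 : ((∑ c, (cls c).card) + (K + 1) ^ N) * (K + 1) ^ 3 ≤
        ((K + 1) ^ N * n + ∑ c, (bd c).card) * (K + 1) ^ 3 := Nat.mul_le_mul_right _ h1
    have h3 : (n * (K + 1) ^ 3 + bad.card) * (K + 1) ^ N ≤
        ((K + 1) ^ 2 * N) * (K + 1) ^ N := by
      rw [hNZ]
      exact Nat.mul_le_mul_right _ h
    have h4 : (∑ c, (cls c).card) * (K + 1) ^ 3 = N * (K + 1) ^ N * (K + 1) ^ 2 := by
      rw [← hS1]; ring
    have h5 : 0 < (K + 1) ^ N * (K + 1) ^ 3 := by positivity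
    rw [add_mul, add_mul, h4, hS2] at h2
    nlinarith
  obtain ⟨Y, hY, hYc, hYb⟩ := remove_bad (cls c) (bd c) n hc
  refine ⟨Y, hY.trans (hclsZ c), hYc, fun t ht hh => ?_⟩
  refine hYb t ?_ hh
  simp only [bd, mem_filter]
  exact ⟨ht, hY hh.1, hY hh.2.1, hY hh.2.2⟩

theorem alteration {Lam X : Type} [DecidableEq X] (P : Finset Lam) (hP : P.Nonempty)
    (pts : Finset X) (Z : Lam → Finset X) (_hZ : ∀ a ∈ P, Z a ⊆ pts)
    (bad : Finset (X × X × X)) (hbad : ∀ t ∈ bad, t.1 ≠ t.2.1 ∧ t.2.1 ≠ t.2.2 ∧ t.1 ≠ t.2.2)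
    (K n : ℕ) (hK : 0 < K)
    (h : n * K ^ 3 * P.card +
        ∑ a ∈ P, (bad.filter fun t => t.1 ∈ Z a ∧ t.2.1 ∈ Z a ∧ t.2.2 ∈ Z a).card
      ≤ K ^ 2 * ∑ a ∈ P, (Z a).card) :
    ∃ a ∈ P, ∃ Y ⊆ Z a, Y.card = n ∧ ∀ t ∈ bad, ¬ (t.1 ∈ Y ∧ t.2.1 ∈ Y ∧ t.2.2 ∈ Y) := by
  obtain ⟨a, ha, hab⟩ : ∃ a ∈ P, n * K ^ 3 +
      (bad.filter fun t => t.1 ∈ Z a ∧ t.2.1 ∈ Z a ∧ t.2.2 ∈ Z a).card ≤ K ^ 2 * (Z a).card := by
    by_contra hcon
    push Not at hcon
    have h1 : ∑ a ∈ P, K ^ 2 * (Z a).card < ∑ a ∈ P, (n * K ^ 3 +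
        (bad.filter fun t => t.1 ∈ Z a ∧ t.2.1 ∈ Z a ∧ t.2.2 ∈ Z a).card) :=
      Finset.sum_lt_sum_of_nonempty hP hcon
    rw [← Finset.mul_sum, Finset.sum_add_distrib, Finset.sum_const, smul_eq_mul] at h1
    have : P.card * (n * K ^ 3) = n * K ^ 3 * P.card := by ring
    omega
  obtain ⟨Y, hY, hYc, hYb⟩ := alteration_one (Z a)
    (bad.filter fun t => t.1 ∈ Z a ∧ t.2.1 ∈ Z a ∧ t.2.2 ∈ Z a)
    (fun t ht => (mem_filter.1 ht).2) (fun t ht => hbad t (mem_filter.1 ht).1) K n hK hab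
  refine ⟨a, ha, Y, hY, hYc, fun t ht hh => ?_⟩
  exact hYb t (mem_filter.2 ⟨ht, hY hh.1, hY hh.2.1, hY hh.2.2⟩) hh

end Vale.Agent.P036.LB
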