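import Mathlib

/-!
Block H, part 2: verification of the parameter inequalities.
-/

namespace Vale.Agent.P036.LB
open Finset Filter Real

/-- size of `M` -/
theorem check_M (n Q p r : ℕ) (hr : r = Nat.sqrt (p / 32)) (hn7 : 10 ^ 7 ≤ n)
    (hQn : 2 ^ 57 * Q ^ 28 ≤ n) (hQ : 0 < Q)
    (hp1 : n ^ 3 < p) :
    0 < r / Q ^ 12 ∧ 32 * (Q ^ 12 * (r / Q ^ 12)) ^ 2 ≤ p ∧
      p ≤ 128 * (Q ^ 12 * (r / Q ^ 12)) ^ 2 := by
  have hQ12 : Q ^ 12 ≤ n := by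
    calc Q ^ 12 ≤ Q ^ 28 := Nat.pow_le_pow_right hQ (by norm_num)
      _ ≤ 2 ^ 57 * Q ^ 28 := Nat.le_mul_of_pos_left _ (by norm_num)
      _ ≤ n := hQn
  have h1 : r * r ≤ p / 32 := by rw [hr]; exact Nat.sqrt_le _
  have h2 : p / 32 < (r + 1) * (r + 1) := by rw [hr]; exact Nat.lt_succ_sqrt _
  have h2' : p < 32 * ((r + 1) * (r + 1)) := by omega
  have h1' : 32 * (r * r) ≤ p := by omega
  have hbig : 4 * n < r + 1 := by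
    by_contra hcon
    push Not at hcon
    have : (r + 1) * (r + 1) ≤ (4 * n) * (4 * n) := Nat.mul_le_mul hcon hcon
    have h3 : n ^ 3 < 32 * ((4 * n) * (4 * n)) := by omega
    have h4 : 10 ^ 7 * n ^ 2 ≤ n ^ 3 := by
      calc 10 ^ 7 * n ^ 2 ≤ n * n ^ 2 := Nat.mul_le_mul_right _ hn7
        _ = n ^ 3 := by ring
    nlinarith [Nat.pos_of_ne_zero (show n ≠ 0 by omega)]
  set q := Q ^ 12 with hq
  have hqpos : 0 < q := by positivity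
  have hdiv := Nat.div_add_mod r q
  have hmod := Nat.mod_lt r hqpos
  have hM : r < q * (r / q) + q := by omega
  have hM' : q * (r / q) ≤ r := by omega
  refine ⟨?_, ?_, ?_⟩
  · rw [Nat.div_pos_iff]
    omega
  · calc 32 * (q * (r / q)) ^ 2 ≤ 32 * r ^ 2 := by gcongr
      _ ≤ p := by rw [pow_two]; exact h1'
  · have h3 : r + 1 ≤ 2 * (q * (r / q)) := by omega
    calc p ≤ 32 * ((r + 1) * (r + 1)) := h2'.le
      _ ≤ 32 * ((2 * (q * (r / q))) * (2 * (q * (r / q)))) := by gcongr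
      _ = 128 * (q * (r / q)) ^ 2 := by ring

/-- size of `T` -/
theorem check_T (n Q e p T : ℕ) (X : ℝ) (hn7 : 10 ^ 7 ≤ n) (hQn : 2 ^ 57 * Q ^ 28 ≤ n)
    (hQ : 0 < Q) (heQ : 2 ^ e ≤ Q) (hlog : 10 ^ 6 * log n ≤ n)
    (hp1 : n ^ 3 < p) (hX : X = 8448 * n ^ 2 * p * log n / (2 ^ e * Q ^ 2))
    (hT : T = ⌈√X⌉₊) :
    1 ≤ T ∧ X ≤ (T:ℝ) ^ 2 ∧ (T:ℝ) ^ 2 ≤ 4 * X ∧ 2 * Q * T < p := by
  have hn0 : (0:ℝ) < n := by
    have : 0 < n := by omega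
    exact_mod_cast this
  have hn7' : (10:ℝ) ^ 7 ≤ n := by exact_mod_cast hn7
  have hlog1 : 1 ≤ log n := by
    rw [le_log_iff_exp_le hn0]
    have := Real.exp_one_lt_d9
    linarith
  have hQr : (1:ℝ) ≤ Q := by exact_mod_cast hQ
  have hp1' : (n:ℝ) ^ 3 < p := by exact_mod_cast hp1
  have hp0 : (0:ℝ) < p := lt_trans (by positivity) hp1'
  have heQ' : (2:ℝ) ^ e ≤ Q := by exact_mod_cast heQ
  have hQ3 : (2:ℝ) ^ e * Q ^ 2 ≤ n := by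
    calc (2:ℝ) ^ e * Q ^ 2 ≤ (Q:ℝ) * (Q:ℝ) ^ 2 := by gcongr
      _ = (Q:ℝ) ^ 3 := by ring
      _ ≤ (Q:ℝ) ^ 28 := pow_le_pow_right₀ hQr (by norm_num)
      _ ≤ 2 ^ 57 * (Q:ℝ) ^ 28 := le_mul_of_one_le_left (by positivity) (by norm_num)
      _ ≤ (n:ℝ) := by exact_mod_cast hQn
  have hX1 : 1 ≤ X := by
    rw [hX, le_div_iff₀ (by positivity), one_mul]
    refine hQ3.trans ?_
    have : (n:ℝ) ≤ n ^ 3 := by
      calc (n:ℝ) = n ^ 1 := by ring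
        _ ≤ n ^ 3 := pow_le_pow_right₀ (by linarith) (by norm_num)
    have h2 : (p:ℝ) ≤ 8448 * n ^ 2 * p * log n := by
      have : (1:ℝ) ≤ 8448 * n ^ 2 * log n := by nlinarith
      nlinarith
    linarith
  have hX0 : 0 < X := by linarith
  have hs1 : 1 ≤ √X := by
    rw [Real.one_le_sqrt]; exact hX1
  have hT1 : √X ≤ T := by rw [hT]; exact Nat.le_ceil _
  have hT2 : (T:ℝ) ≤ 2 * √X := by
    have : (T:ℝ) < √X + 1 := by rw [hT]; exact Nat.ceil_lt_add_one (by linarith)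
    linarith
  have hsq : √X ^ 2 = X := Real.sq_sqrt hX0.le
  have hTX : (T:ℝ) ^ 2 ≤ 4 * X := by
    calc (T:ℝ) ^ 2 ≤ (2 * √X) ^ 2 := by gcongr
      _ = 4 * X := by rw [mul_pow, hsq]; norm_num
  refine ⟨?_, ?_, hTX, ?_⟩
  · have : (1:ℝ) ≤ T := hs1.trans hT1
    exact_mod_cast this
  · calc X = √X ^ 2 := hsq.symm
      _ ≤ (T:ℝ) ^ 2 := by gcongr
  · have h2e : (1:ℝ) ≤ 2 ^ e := one_le_pow₀ (by norm_num)
    have : ((2:ℝ) * Q * T) ^ 2 < (p:ℝ) ^ 2 := by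
      calc ((2:ℝ) * Q * T) ^ 2 = 4 * Q ^ 2 * (T:ℝ) ^ 2 := by ring
        _ ≤ 4 * Q ^ 2 * (4 * X) := by gcongr
        _ = 135168 * n ^ 2 * p * log n / 2 ^ e := by
            rw [hX]; field_simp; ring
        _ ≤ 135168 * n ^ 2 * p * log n := by
            apply div_le_self _ h2e
            positivity
        _ = (135168 * log n) * n ^ 2 * p := by ring
        _ ≤ n * n ^ 2 * p := by
            gcongr
            linarith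
        _ = (n:ℝ) ^ 3 * p := by ring
        _ < p * p := by gcongr
        _ = (p:ℝ) ^ 2 := by ring
    have h3 : (2:ℝ) * Q * T < p := lt_of_pow_lt_pow_left₀ 2 hp0.le this
    exact_mod_cast h3

/-- the main inequality of the core, real variables -/
theorem check_real (n Q p T K M c X : ℝ) (e : ℕ) (hn7 : 10 ^ 7 ≤ n)
    (hQr : 1 ≤ Q) (he : 6 ≤ e) (heQ : 11 ^ e ≤ Q)
    (hM1 : 1 ≤ M) (hp1' : n ^ 3 < p) (hp2' : p ≤ 2 * n ^ 3)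
    (hpM : p ≤ 128 * (Q ^ 12 * M) ^ 2)
    (hX : X = 8448 * n ^ 2 * p * log n / (2 ^ e * Q ^ 2))
    (hT : 1 ≤ T) (hXT : X ≤ T ^ 2) (hTp : T ≤ p)
    (hcr : Q ^ 17 ≤ c)
    (hK0 : 0 < K)
    (hK1 : K ≤ (T ^ 2 * (Q ^ 150 * M ^ 16) * c) / (2 * n * p ^ 9))
    (hK2 : (T ^ 2 * (Q ^ 150 * M ^ 16) * c) / (4 * n * p ^ 9) ≤ K) :
    n * K ^ 3 * p ^ 26
        + T ^ 2 * (33 * T ^ 2 * (1 + Real.log T)) *
          ((Q ^ 150 * M ^ 16) ^ 3 * c ^ 3 / (2 ^ e * Q ^ 2))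
        + T ^ 2 * (33 * T ^ 2 * (1 + Real.log T)) *
          ((3 * (3 ^ 17 * (2 * (Q ^ 12 * M) + 1) * (8 * Q ^ 7 * M) ^ 15
            + (Q ^ 2 * M) ^ 2) + 1) * ((Q ^ 12 * M) ^ 15 * (Q ^ 2 * M))) * p ^ 8
        ≤ K ^ 2 * (T ^ 2 * (Q ^ 150 * M ^ 16) * c) * p ^ 17 := by
  have hn0 : 0 < n := by linarith
  have hlog1 : 2 ≤ log n := by
    rw [le_log_iff_exp_le hn0]
    have h1 := Real.exp_one_lt_d9
    have h2 : Real.exp 2 = Real.exp 1 ^ 2 := by rw [← Real.exp_nat_mul]; norm_num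
    rw [h2]
    have h3 := Real.exp_pos 1
    nlinarith
  have hp0 : 0 < p := lt_trans (by positivity) hp1'
  have hc0 : 0 < c := lt_of_lt_of_le (by positivity) hcr
  have hT0 : 0 < T := by linarith
  have h2e : (0:ℝ) < 2 ^ e := by positivity
  have hpM' : p ^ 8 ≤ 2 ^ 56 * Q ^ 192 * M ^ 16 := by
    calc p ^ 8 ≤ (128 * (Q ^ 12 * M) ^ 2) ^ 8 := by gcongr
      _ = 2 ^ 56 * Q ^ 192 * M ^ 16 := by
        rw [show (128:ℝ) = 2 ^ 7 by norm_num]; ring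
  -- log T
  have hlogT : 1 + log T ≤ 4 * log n := by
    have h1 : log T ≤ log p := log_le_log hT0 hTp
    have h2 : log p ≤ log (2 * n ^ 3) := log_le_log hp0 hp2'
    rw [log_mul (by norm_num) (by positivity), log_pow] at h2
    have h3 := Real.log_two_lt_d9
    push_cast at h2
    linarith
  have hlogT0 : 0 ≤ log T := log_nonneg hT
  set A : ℝ := T ^ 2 * (Q ^ 150 * M ^ 16) * c with hA
  have hA0 : 0 < A := by positivity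
  -- three parts
  have P1 : n * K ^ 3 * p ^ 26 ≤ K ^ 2 * A * p ^ 17 / 2 := by
    have : n * K * p ^ 26 ≤ A * p ^ 17 / 2 := by
      calc n * K * p ^ 26 ≤ n * (A / (2 * n * p ^ 9)) * p ^ 26 := by gcongr
        _ = A * p ^ 17 / 2 := by field_simp
    calc n * K ^ 3 * p ^ 26 = K ^ 2 * (n * K * p ^ 26) := by ring
      _ ≤ K ^ 2 * (A * p ^ 17 / 2) := by gcongr
      _ = _ := by ring
  have hK3 : A ^ 3 / (64 * n ^ 2 * p) ≤ K ^ 2 * A * p ^ 17 / 4 := by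
    calc A ^ 3 / (64 * n ^ 2 * p) = (A / (4 * n * p ^ 9)) ^ 2 * A * p ^ 17 / 4 := by
          field_simp; ring
      _ ≤ K ^ 2 * A * p ^ 17 / 4 := by gcongr
  have hkey : 2112 * n ^ 2 * p * (1 + log T) ≤ T ^ 2 * (2 ^ e * Q ^ 2) := by
    calc 2112 * n ^ 2 * p * (1 + log T) ≤ 2112 * n ^ 2 * p * (4 * log n) := by gcongr
      _ = X * (2 ^ e * Q ^ 2) := by rw [hX]; field_simp; ring
      _ ≤ _ := by gcongr
  have P2 : T ^ 2 * (33 * T ^ 2 * (1 + Real.log T)) *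
          ((Q ^ 150 * M ^ 16) ^ 3 * c ^ 3 / (2 ^ e * Q ^ 2)) ≤
          K ^ 2 * A * p ^ 17 / 4 := by
    refine le_trans ?_ hK3
    rw [mul_div_assoc', div_le_div_iff₀ (by positivity) (by positivity)]
    calc T ^ 2 * (33 * T ^ 2 * (1 + Real.log T)) *
          ((Q ^ 150 * M ^ 16) ^ 3 * c ^ 3) * (64 * n ^ 2 * p) =
          T ^ 4 * ((Q ^ 150 * M ^ 16) ^ 3 * c ^ 3) *
            (2112 * n ^ 2 * p * (1 + log T)) := by ring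
      _ ≤ T ^ 4 * ((Q ^ 150 * M ^ 16) ^ 3 * c ^ 3) *
            (T ^ 2 * (2 ^ e * Q ^ 2)) := by gcongr
      _ = A ^ 3 * (2 ^ e * Q ^ 2) := by rw [hA]; ring
  have hconst : 2 * 3 ^ 19 * 8 ^ 15 * 2 ^ 56 * 2 ^ e ≤ Q ^ 8 := by
    have h2 : (2:ℝ) * 3 ^ 19 * 8 ^ 15 * 2 ^ 56 ≤ 2 ^ 134 := by norm_num
    calc (2:ℝ) * 3 ^ 19 * 8 ^ 15 * 2 ^ 56 * 2 ^ e ≤ 2 ^ 134 * 2 ^ e := by gcongr
      _ = 2 ^ (134 + e) := by rw [pow_add]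
      _ ≤ 2 ^ (24 * e) := pow_le_pow_right₀ (by norm_num) (by omega)
      _ = (2 ^ 3) ^ (8 * e) := by rw [← pow_mul]; congr 1; ring
      _ ≤ 11 ^ (8 * e) := pow_le_pow_left₀ (by norm_num) (by norm_num) _
      _ = (11 ^ e) ^ 8 := by rw [← pow_mul]; congr 1; ring
      _ ≤ Q ^ 8 := by gcongr
  have hB : 3 * (3 ^ 17 * (2 * (Q ^ 12 * M) + 1) * (8 * Q ^ 7 * M) ^ 15
            + (Q ^ 2 * M) ^ 2) + 1 ≤ 2 * 3 ^ 19 * 8 ^ 15 * (Q ^ 117 * M ^ 16) := by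
    have hq1 : 1 ≤ Q ^ 12 * M := one_le_mul_of_one_le_of_one_le (one_le_pow₀ hQr) hM1
    have hq2 : (Q ^ 2 * M) ^ 2 ≤ Q ^ 117 * M ^ 16 := by
      calc (Q ^ 2 * M) ^ 2 = Q ^ 4 * M ^ 2 := by ring
        _ ≤ Q ^ 117 * M ^ 16 := by
          gcongr <;> norm_num
    have hq3 : 1 ≤ Q ^ 117 * M ^ 16 :=
      one_le_mul_of_one_le_of_one_le (one_le_pow₀ hQr) (one_le_pow₀ hM1)
    calc 3 * (3 ^ 17 * (2 * (Q ^ 12 * M) + 1) * (8 * Q ^ 7 * M) ^ 15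
            + (Q ^ 2 * M) ^ 2) + 1 ≤
          3 * (3 ^ 17 * (2 * (Q ^ 12 * M) + Q ^ 12 * M) * (8 * Q ^ 7 * M) ^ 15
            + Q ^ 117 * M ^ 16) + Q ^ 117 * M ^ 16 := by gcongr
      _ = (3 ^ 19 * 8 ^ 15 + 4) * (Q ^ 117 * M ^ 16) := by ring
      _ ≤ 2 * 3 ^ 19 * 8 ^ 15 * (Q ^ 117 * M ^ 16) := by
          gcongr
          norm_num
  have P3 : T ^ 2 * (33 * T ^ 2 * (1 + Real.log T)) *
          ((3 * (3 ^ 17 * (2 * (Q ^ 12 * M) + 1) * (8 * Q ^ 7 * M) ^ 15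
            + (Q ^ 2 * M) ^ 2) + 1) * ((Q ^ 12 * M) ^ 15 * (Q ^ 2 * M))) * p ^ 8
          ≤ K ^ 2 * A * p ^ 17 / 4 := by
    refine le_trans ?_ hK3
    rw [le_div_iff₀ (by positivity)]
    have hmid : (2 * 3 ^ 19 * 8 ^ 15 * (Q ^ 117 * M ^ 16)) *
        ((Q ^ 12 * M) ^ 15 * (Q ^ 2 * M)) * p ^ 8 * (2 ^ e * Q ^ 2) ≤
        (Q ^ 150 * M ^ 16) ^ 3 * (Q ^ 17) ^ 3 := by
      calc (2 * 3 ^ 19 * 8 ^ 15 * (Q ^ 117 * M ^ 16)) *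
        ((Q ^ 12 * M) ^ 15 * (Q ^ 2 * M)) * p ^ 8 * (2 ^ e * Q ^ 2)
          ≤ (2 * 3 ^ 19 * 8 ^ 15 * (Q ^ 117 * M ^ 16)) *
        ((Q ^ 12 * M) ^ 15 * (Q ^ 2 * M)) * (2 ^ 56 * Q ^ 192 * M ^ 16)
          * (2 ^ e * Q ^ 2) := by gcongr
        _ = (2 * 3 ^ 19 * 8 ^ 15 * 2 ^ 56 * 2 ^ e) * (Q ^ 493 * M ^ 48) := by ring
        _ ≤ Q ^ 8 * (Q ^ 493 * M ^ 48) := by gcongr
        _ = (Q ^ 150 * M ^ 16) ^ 3 * (Q ^ 17) ^ 3 := by ring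
    calc T ^ 2 * (33 * T ^ 2 * (1 + Real.log T)) *
          ((3 * (3 ^ 17 * (2 * (Q ^ 12 * M) + 1) * (8 * Q ^ 7 * M) ^ 15
            + (Q ^ 2 * M) ^ 2) + 1) * ((Q ^ 12 * M) ^ 15 * (Q ^ 2 * M))) * p ^ 8
            * (64 * n ^ 2 * p)
        ≤ T ^ 2 * (33 * T ^ 2 * (1 + Real.log T)) *
          ((2 * 3 ^ 19 * 8 ^ 15 * (Q ^ 117 * M ^ 16)) * ((Q ^ 12 * M) ^ 15 * (Q ^ 2 * M)))
            * p ^ 8 * (64 * n ^ 2 * p) := by gcongr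
      _ = (2112 * n ^ 2 * p * (1 + log T)) * (T ^ 4 *
          ((2 * 3 ^ 19 * 8 ^ 15 * (Q ^ 117 * M ^ 16)) * ((Q ^ 12 * M) ^ 15 * (Q ^ 2 * M)))
            * p ^ 8) := by ring
      _ ≤ (T ^ 2 * (2 ^ e * Q ^ 2)) * (T ^ 4 *
          ((2 * 3 ^ 19 * 8 ^ 15 * (Q ^ 117 * M ^ 16)) * ((Q ^ 12 * M) ^ 15 * (Q ^ 2 * M)))
            * p ^ 8) := by gcongr
      _ = T ^ 6 * ((2 * 3 ^ 19 * 8 ^ 15 * (Q ^ 117 * M ^ 16)) *
        ((Q ^ 12 * M) ^ 15 * (Q ^ 2 * M)) * p ^ 8 * (2 ^ e * Q ^ 2)) := by ring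
      _ ≤ T ^ 6 * ((Q ^ 150 * M ^ 16) ^ 3 * (Q ^ 17) ^ 3) := by gcongr
      _ ≤ T ^ 6 * ((Q ^ 150 * M ^ 16) ^ 3 * c ^ 3) := by gcongr
      _ = A ^ 3 := by rw [hA]; ring
  calc _ ≤ K ^ 2 * A * p ^ 17 / 2 + K ^ 2 * A * p ^ 17 / 4
        + K ^ 2 * A * p ^ 17 / 4 := add_le_add (add_le_add P1 P2) P3
    _ = K ^ 2 * A * p ^ 17 := by ring

/-- the expected size is at least `2n` -/
theorem check_size (n Q p T M c X : ℝ) (e : ℕ) (hn7 : 10 ^ 7 ≤ n)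
    (hQn : 2 ^ 57 * Q ^ 28 ≤ n)
    (hQr : 1 ≤ Q) (heQ : 11 ^ e ≤ Q)
    (hM1 : 1 ≤ M) (hp1' : n ^ 3 < p)
    (hpM : p ≤ 128 * (Q ^ 12 * M) ^ 2)
    (hX : X = 8448 * n ^ 2 * p * log n / (2 ^ e * Q ^ 2))
    (hXT : X ≤ T ^ 2)
    (hcr : Q ^ 17 ≤ c) :
    1 ≤ (T ^ 2 * (Q ^ 150 * M ^ 16) * c) / (2 * n * p ^ 9) := by
  have hn0 : 0 < n := by linarith
  have hlog1 : 1 ≤ log n := by
    rw [le_log_iff_exp_le hn0]
    have h1 := Real.exp_one_lt_d9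
    linarith
  have hp0 : 0 < p := lt_trans (by positivity) hp1'
  have hc0 : 0 < c := lt_of_lt_of_le (by positivity) hcr
  have h2e : (0:ℝ) < 2 ^ e := by positivity
  have heQ2 : (2:ℝ) ^ e ≤ Q := le_trans (pow_le_pow_left₀ (by norm_num) (by norm_num) _) heQ
  have hpM' : p ^ 8 ≤ 2 ^ 56 * Q ^ 192 * M ^ 16 := by
    calc p ^ 8 ≤ (128 * (Q ^ 12 * M) ^ 2) ^ 8 := by gcongr
      _ = 2 ^ 56 * Q ^ 192 * M ^ 16 := by
        rw [show (128:ℝ) = 2 ^ 7 by norm_num]; ring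
  rw [le_div_iff₀ (by positivity), one_mul]
  have h1 : X * (Q ^ 150 * M ^ 16) * Q ^ 17 ≤ T ^ 2 * (Q ^ 150 * M ^ 16) * c := by
    gcongr
  refine le_trans ?_ h1
  rw [hX]
  rw [show 8448 * n ^ 2 * p * log n / (2 ^ e * Q ^ 2) * (Q ^ 150 * M ^ 16) * Q ^ 17 =
    8448 * n ^ 2 * p * log n * (Q ^ 165 * M ^ 16) / 2 ^ e by
      field_simp]
  rw [le_div_iff₀ h2e]
  calc 2 * n * p ^ 9 * 2 ^ e = 2 * n * p * 2 ^ e * p ^ 8 := by ring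
    _ ≤ 2 * n * p * Q * (2 ^ 56 * Q ^ 192 * M ^ 16) := by gcongr
    _ = n * p * (2 ^ 57 * Q ^ 28) * (Q ^ 165 * M ^ 16) := by ring
    _ ≤ n * p * n * (Q ^ 165 * M ^ 16) := by
        gcongr
    _ = 1 * n ^ 2 * p * 1 * (Q ^ 165 * M ^ 16) := by ring
    _ ≤ 8448 * n ^ 2 * p * log n * (Q ^ 165 * M ^ 16) := by
        gcongr
        norm_num

end Vale.Agent.P036.LB
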