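import Mathlib

/-!
Block H, part 1: choice of the set of primes `L` and the asymptotic inequalities.
-/

namespace Vale.Agent.P036.LB
open Finset Filter Real

/-- the primes in `[11, L0]` -/
def Lset (L0 : ℕ) : Finset ℕ := (Nat.primesLE L0).filter fun l => 11 ≤ l

theorem Lset_mem (L0 : ℕ) : ∀ l ∈ Lset L0, l.Prime ∧ 11 ≤ l := by
  intro l hl
  simp only [Lset, mem_filter, Nat.mem_primesLE] at hl
  exact ⟨hl.1.2, hl.2⟩

theorem Lset_card (L0 : ℕ) : Nat.primeCounting L0 ≤ (Lset L0).card + 4 := by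
  have h1 : (Nat.primesLE L0).card = Nat.primeCounting L0 := by simp
  rw [← h1]
  have h2 : Nat.primesLE L0 ⊆ Lset L0 ∪ {2, 3, 5, 7} := by
    intro l hl
    rw [mem_union]
    by_cases h11 : 11 ≤ l
    · left
      simp only [Lset, mem_filter]
      exact ⟨hl, h11⟩
    · right
      push Not at h11
      have hp := (Nat.mem_primesLE.1 hl).2
      interval_cases l <;> first | decide | (exfalso; revert hp; norm_num)
  calc (Nat.primesLE L0).card ≤ (Lset L0 ∪ {2, 3, 5, 7}).card := card_le_card h2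
    _ ≤ (Lset L0).card + ({2, 3, 5, 7} : Finset ℕ).card := card_union_le _ _
    _ = (Lset L0).card + 4 := by rfl

theorem Lset_prod_le (L0 : ℕ) : ∏ l ∈ Lset L0, l ≤ 4 ^ L0 := by
  refine le_trans ?_ (primorial_le_four_pow L0)
  rw [primorial_eq_prod_primesLE]
  refine prod_le_prod_of_subset_of_one_le' (filter_subset _ _) ?_
  intro i hi _
  exact (Nat.mem_primesLE.1 hi).2.one_le

theorem Lset_pow_le (L0 : ℕ) : 11 ^ (Lset L0).card ≤ ∏ l ∈ Lset L0, l :=
  pow_card_le_prod _ _ _ fun l hl => (Lset_mem L0 l hl).2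

/-- lower bound for the number of primes used -/
theorem card_lower : ∀ᶠ y : ℝ in atTop,
    y / (200 * log y) + 6 ≤ ((Lset ⌊y / 42⌋₊).card : ℝ) := by
  -- log (L+1) ≤ small
  have hlo : ∀ᶠ y : ℝ in atTop, log y ≤ (1/1000) * y := by
    have := (isLittleO_log_id_atTop).bound (show (0:ℝ) < 1/1000 by norm_num)
    filter_upwards [this, eventually_ge_atTop 1] with y hy h1
    simpa [abs_of_nonneg (log_nonneg h1), abs_of_nonneg (by linarith : (0:ℝ) ≤ y)] using hy
  have hlo2 : ∀ᶠ y : ℝ in atTop, 10 * log y ≤ (1/2000) * y := by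
    have := (isLittleO_log_id_atTop).bound (show (0:ℝ) < 1/20000 by norm_num)
    filter_upwards [this, eventually_ge_atTop 1] with y hy h1
    have : log y ≤ (1/20000) * y := by
      simpa [abs_of_nonneg (log_nonneg h1), abs_of_nonneg (by linarith : (0:ℝ) ≤ y)] using hy
    linarith
  filter_upwards [hlo, hlo2, eventually_ge_atTop 10000] with y h1 h2 h3
  set N := ⌊y / 42⌋₊ with hN
  have hN1 : (N:ℝ) ≤ y / 42 := Nat.floor_le (by linarith)
  have hN2 : y / 42 - 1 < N := by
    have := Nat.lt_floor_add_one (y / 42)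
    rw [← hN] at this
    linarith
  have hpi := Chebyshev.pi_ge N
  have hc : (Nat.primeCounting N : ℝ) ≤ (Lset N).card + 4 := by exact_mod_cast Lset_card N
  have hNbig : (200:ℝ) < N := by linarith
  have hlogN : log N ≤ log y := log_le_log (by linarith) (by linarith)
  have hlogN0 : 0 < log N := log_pos (by linarith)
  have hlogN1 : log (N + 1) ≤ log y := log_le_log (by linarith) (by linarith)
  have hlogy : 0 < log y := log_pos (by linarith)
  have hlog2 : (0.69:ℝ) < log 2 := by
    have := Real.log_two_gt_d9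
    linarith
  have hnum : y / 200 + 10 * log y ≤ N * log 2 - log (N + 1) := by
    have : (N:ℝ) * 0.69 ≤ N * log 2 := by
      apply mul_le_mul_of_nonneg_left hlog2.le (by linarith)
    nlinarith
  have hdiv : y / (200 * log y) + 10 ≤ (N * log 2 - log (N + 1)) / log N := by
    rw [le_div_iff₀ hlogN0]
    calc (y / (200 * log y) + 10) * log N ≤ (y / (200 * log y) + 10) * log y := by
          apply mul_le_mul_of_nonneg_left hlogN
          positivity
      _ = y / 200 + 10 * log y := by
          field_simp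
      _ ≤ _ := hnum
  linarith

/-- the choice of primes -/
theorem numbers : ∀ᶠ n : ℕ in atTop, ∃ (L : Finset ℕ),
    (∀ l ∈ L, l.Prime ∧ 11 ≤ l) ∧ 6 ≤ L.card ∧ 11 ^ L.card ≤ ∏ l ∈ L, l ∧
    2 ^ 57 * (∏ l ∈ L, l) ^ 28 ≤ n ∧
    10 ^ 7 ≤ n ∧ 10 ^ 6 * log n ≤ n ∧
    Real.exp ((1/1000) * Real.log n / Real.log (Real.log n)) * (10 ^ 6 * log n) ≤ 2 ^ L.card := by
  have hlogn : Tendsto (fun n : ℕ => log (n:ℝ)) atTop atTop :=
    tendsto_log_atTop.comp tendsto_natCast_atTop_atTop
  have e1 := hlogn.eventually card_lower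
  -- 57 log 2 ≤ small * log n
  have e2 := hlogn.eventually (eventually_ge_atTop (10000:ℝ))
  have e3 : ∀ᶠ n : ℕ in atTop, 10 ^ 6 * log n ≤ (n:ℝ) := by
    have := (isLittleO_log_id_atTop).bound (show (0:ℝ) < 1/10^6 by norm_num)
    have := tendsto_natCast_atTop_atTop (R := ℝ) |>.eventually this
    filter_upwards [this, eventually_ge_atTop 1] with n hn h1
    have h1' : (1:ℝ) ≤ n := by exact_mod_cast h1
    have : log n ≤ (1/10^6) * (n:ℝ) := by
      simpa [abs_of_nonneg (log_nonneg h1'), abs_of_nonneg (by linarith : (0:ℝ) ≤ (n:ℝ))] using hn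
    linarith
  -- exponent inequality
  have e4 : ∀ᶠ y : ℝ in atTop, (1/1000) * y / log y + (14 + log y) ≤
      (y / (200 * log y) + 6) * log 2 := by
    have := ((isLittleO_pow_log_id_atTop (n := 2))).bound (show (0:ℝ) < 1/2000 by norm_num)
    filter_upwards [this, eventually_ge_atTop (Real.exp 14)] with y hy h1
    have hy0 : 0 < y := lt_of_lt_of_le (exp_pos _) h1
    have hl : 14 ≤ log y := by
      rw [le_log_iff_exp_le hy0]; exact h1
    have hy' : log y ^ 2 ≤ (1/2000) * y := by
      simpa [abs_of_nonneg (sq_nonneg (log y)), abs_of_nonneg hy0.le] using hy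
    have hlog2 : (0.69:ℝ) < log 2 := by
      have := Real.log_two_gt_d9
      linarith
    have hlp : 0 < log y := by linarith
    have h5 : (y / (200 * log y) + 6) * 0.69 ≤ (y / (200 * log y) + 6) * log 2 := by
      apply mul_le_mul_of_nonneg_left hlog2.le
      positivity
    refine le_trans ?_ h5
    have h6 : (1/1000) * y / log y + (14 + log y) ≤ y * 0.00345 / log y := by
      rw [div_add' _ _ _ hlp.ne', div_le_div_iff_of_pos_right hlp]
      nlinarith
    have h7 : (y / (200 * log y) + 6) * 0.69 = y * 0.00345 / log y + 4.14 := by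
      field_simp
      ring
    rw [h7]
    linarith
  have e4' := hlogn.eventually e4
  filter_upwards [e1, e2, e3, e4', eventually_ge_atTop (10^7)] with n h1 h2 h3 h4 h5
  set y := log (n:ℝ) with hy
  have hn0 : (0:ℝ) < n := by
    have : (10^7:ℝ) ≤ n := by exact_mod_cast h5
    linarith
  have hexp : Real.exp y = n := by rw [hy, exp_log hn0]
  have hlogy : 0 < log y := log_pos (by linarith)
  refine ⟨Lset ⌊y / 42⌋₊, Lset_mem _, ?_, Lset_pow_le _, ?_, h5, h3, ?_⟩
  · have : (6:ℝ) ≤ (Lset ⌊y / 42⌋₊).card := by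
      refine le_trans ?_ h1
      have : 0 ≤ y / (200 * log y) := by
        apply div_nonneg <;> nlinarith
      linarith
    exact_mod_cast this
  · have hQ := Lset_prod_le ⌊y / 42⌋₊
    have hQ' : ((∏ l ∈ Lset ⌊y / 42⌋₊, l : ℕ) : ℝ) ≤ 4 ^ ⌊y / 42⌋₊ := by exact_mod_cast hQ
    have : ((2 ^ 57 * (∏ l ∈ Lset ⌊y / 42⌋₊, l) ^ 28 : ℕ) : ℝ) ≤ n := by
      rw [Nat.cast_mul, Nat.cast_pow, Nat.cast_pow, Nat.cast_ofNat]
      calc (2:ℝ) ^ 57 * ((∏ l ∈ Lset ⌊y / 42⌋₊, l : ℕ) : ℝ) ^ 28
          ≤ 2 ^ 57 * ((4:ℝ) ^ ⌊y / 42⌋₊) ^ 28 := by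
            gcongr
        _ = Real.exp (log 2 * 57) * Real.exp (log 2 * (2 * 28 * ⌊y / 42⌋₊)) := by
            congr 1
            · rw [mul_comm, show (57:ℝ) = ((57:ℕ):ℝ) by norm_num, Real.exp_nat_mul,
                Real.exp_log (by norm_num)]
            · rw [mul_comm (log 2), show (2:ℝ) * 28 * (⌊y / 42⌋₊:ℝ) =
                ((2 * 28 * ⌊y / 42⌋₊ : ℕ):ℝ) by push_cast; ring, Real.exp_nat_mul,
                Real.exp_log (by norm_num), show (4:ℝ) = 2 ^ 2 by norm_num, ← pow_mul, ← pow_mul]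
              congr 1
              ring
        _ = Real.exp (log 2 * (57 + 2 * 28 * ⌊y / 42⌋₊)) := by
            rw [← Real.exp_add]; congr 1; ring
        _ ≤ Real.exp y := by
            apply Real.exp_le_exp.2
            have hf : (⌊y / 42⌋₊:ℝ) ≤ y / 42 := Nat.floor_le (by linarith)
            have hlog2 : log 2 < 0.6932 := by
              have := Real.log_two_lt_d9
              linarith
            have hlog2' : 0 < log 2 := log_pos (by norm_num)
            have : 57 + 2 * 28 * (⌊y / 42⌋₊:ℝ) ≤ 57 + 56 * (y / 42) := by linarith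
            calc log 2 * (57 + 2 * 28 * ⌊y / 42⌋₊) ≤ 0.6932 * (57 + 56 * (y / 42)) := by
                  apply mul_le_mul hlog2.le this (by positivity) (by norm_num)
              _ ≤ y := by linarith
        _ = n := hexp
    exact_mod_cast this
  · have h14 : (10:ℝ)^6 ≤ Real.exp 14 := by
      have : (2.7182818283:ℝ) ^ 14 ≤ Real.exp 1 ^ 14 := by
        gcongr
        exact Real.exp_one_gt_d9.le
      rw [← Real.exp_nat_mul] at this
      norm_num at this
      linarith
    calc Real.exp ((1/1000) * y / log y) * (10 ^ 6 * y)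
        ≤ Real.exp ((1/1000) * y / log y) * (Real.exp 14 * Real.exp (log y)) := by
          rw [Real.exp_log (by linarith : 0 < y)]
          gcongr
      _ = Real.exp ((1/1000) * y / log y + (14 + log y)) := by
          rw [← Real.exp_add, ← Real.exp_add]
      _ ≤ Real.exp ((y / (200 * log y) + 6) * log 2) := Real.exp_le_exp.2 h4
      _ ≤ Real.exp ((Lset ⌊y / 42⌋₊).card * log 2) := by
          apply Real.exp_le_exp.2
          apply mul_le_mul_of_nonneg_right h1 (log_nonneg (by norm_num))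
      _ = 2 ^ (Lset ⌊y / 42⌋₊).card := by
          rw [Real.exp_nat_mul, Real.exp_log (by norm_num)]

end Vale.Agent.P036.LB
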