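import Mathlib
import Vale.Agent.P036.LB.Basic
import Vale.Agent.P036.LB.HNum
import Vale.Agent.P036.LB.HCheck

/-!
Block H : the parameters.  `CrtStmt` and `CoreStmt` are the statements of blocks C and K.
-/

namespace Vale.Agent.P036.LB
open Finset Filter Real

/-- statement of `crt_prod` -/
def CrtStmt : Prop := ∀ (L : Finset ℕ) (_ : ∀ l ∈ L, l.Prime ∧ 11 ≤ l),
    ∃ S : Finset (V (ZMod ((∏ l ∈ L, l) ^ 2))), (∏ l ∈ L, l) ^ 17 ≤ S.card ∧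
      2 ^ L.card * (∏ l ∈ L, l) ^ 2 * (zeroTriples S).card ≤ S.card ^ 3

/-- statement of `core` -/
def CoreStmt : Prop := ∀ (Q M h s T K n p e : ℕ) [Fact p.Prime] (_ : 0 < Q) (_ : Q ^ 2 ∣ M)
    (_ : Q ^ 2 ∣ h) (_ : 0 < M) (_ : 0 < h) (_ : 2 * h ≤ M) (_ : 32 * M ^ 2 ≤ p)
    (_ : 32 * M * (h + 1) ≤ s ^ 2) (_ : 1 ≤ T) (_ : 2 * Q * T < p) (_ : 0 < K)
    (S : Finset (V (ZMod (Q ^ 2)))) (_ : 2 ^ e * Q ^ 2 * (zeroTriples S).card ≤ S.card ^ 3)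
    (_ : (n : ℝ) * K ^ 3 * p ^ 26
        + (T:ℝ) ^ 2 * (33 * (T:ℝ) ^ 2 * (1 + Real.log T)) *
          ((((M / Q ^ 2) ^ 15 * (h / Q ^ 2) : ℕ) : ℝ) ^ 3 * (S.card : ℝ) ^ 3 / (2 ^ e * Q ^ 2))
        + (T:ℝ) ^ 2 * (33 * (T:ℝ) ^ 2 * (1 + Real.log T)) *
          ((3 * (3 ^ 17 * (2 * M + 1) * (s:ℝ) ^ 15 + (h:ℝ) ^ 2) + 1) * ((M:ℝ) ^ 15 * h)) * (p:ℝ) ^ 8
        ≤ (K:ℝ) ^ 2 * ((T:ℝ) ^ 2 * (((M / Q ^ 2) ^ 15 * (h / Q ^ 2) : ℕ) : ℝ) * S.card)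
            * (p:ℝ) ^ 17),
    ∃ Y : Finset (ℤ × ℤ), Y.card = n ∧ (∀ t ∈ Y, 0 ≤ t.1 ∧ t.1 < T ∧ 0 ≤ t.2 ∧ t.2 < T) ∧
      ∀ a ∈ Y, ∀ b ∈ Y, ∀ c ∈ Y, a ≠ b → b ≠ c → a ≠ c →
        (p : ℤ) ≤ 2 * Q ^ 2 * |(b.1 - a.1) * (c.2 - a.2) - (b.2 - a.2) * (c.1 - a.1)|

theorem parameters_of (hcrt : CrtStmt) (hcore : CoreStmt) : ∃ c : ℝ, 0 < c ∧ ∃ n₀ : ℕ, ∀ n : ℕ, n₀ ≤ n →
    ∃ (T : ℕ) (Y : Finset (ℤ × ℤ)), 0 < T ∧ Y.card = n ∧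
      (∀ t ∈ Y, 0 ≤ t.1 ∧ t.1 < T ∧ 0 ≤ t.2 ∧ t.2 < T) ∧
      ∀ a ∈ Y, ∀ b ∈ Y, ∀ c' ∈ Y, a ≠ b → b ≠ c' → a ≠ c' →
        Real.exp (c * Real.log n / Real.log (Real.log n)) / (n:ℝ) ^ 2 * (T:ℝ) ^ 2 ≤
          ((|(b.1 - a.1) * (c'.2 - a.2) - (b.2 - a.2) * (c'.1 - a.1)| : ℤ) : ℝ) / 2 := by
  obtain ⟨n₀, hn₀⟩ := eventually_atTop.1 numbers
  refine ⟨1/1000, by norm_num, n₀, fun n hn => ?_⟩
  obtain ⟨L, hL, he, heQ, hQn, hn7, hlog, hexp⟩ := hn₀ n hn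
  obtain ⟨S, hS1, hS2⟩ := hcrt L hL
  have hQpos : 0 < ∏ l ∈ L, l := Finset.prod_pos fun l hl => (hL l hl).1.pos
  set e := L.card with he_def
  clear_value e
  revert S
  generalize (∏ l ∈ L, l) = Q at *
  intro S hS1 hS2
  -- the prime
  obtain ⟨p, hpp, hp1, hp2⟩ := Nat.exists_prime_lt_and_le_two_mul (n ^ 3)
    (by have : 0 < n := by omega
        positivity)
  have : Fact p.Prime := ⟨hpp⟩
  set r := Nat.sqrt (p / 32) with hr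
  obtain ⟨hM1, hMp, hpM⟩ := check_M n Q p r hr hn7 hQn hQpos hp1
  set M1 := r / Q ^ 12 with hM1def
  have heQ2 : 2 ^ e ≤ Q := le_trans (Nat.pow_le_pow_left (by norm_num) _) heQ
  obtain ⟨X, hX⟩ : ∃ X : ℝ, X = 8448 * (n:ℝ) ^ 2 * p * log n / (2 ^ e * (Q:ℝ) ^ 2) := ⟨_, rfl⟩
  set T := ⌈√X⌉₊ with hT
  obtain ⟨hT1, hXT, hTX, hTp⟩ := check_T n Q e p T X hn7 hQn hQpos heQ2 hlog hp1 hX hT
  have hTp' : T ≤ p := by nlinarith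
  have hn7' : (10:ℝ) ^ 7 ≤ n := by exact_mod_cast hn7
  have hQ1 : (1:ℝ) ≤ Q := by exact_mod_cast hQpos
  have hM1' : (1:ℝ) ≤ M1 := by exact_mod_cast hM1
  have hp1' : (n:ℝ) ^ 3 < p := by exact_mod_cast hp1
  have hp2' : (p:ℝ) ≤ 2 * (n:ℝ) ^ 3 := by exact_mod_cast hp2
  have hpM' : (p:ℝ) ≤ 128 * ((Q:ℝ) ^ 12 * M1) ^ 2 := by exact_mod_cast hpM
  have hcr : (Q:ℝ) ^ 17 ≤ S.card := by exact_mod_cast hS1
  have hTr : (1:ℝ) ≤ T := by exact_mod_cast hT1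
  have hn0 : (0:ℝ) < n := by linarith
  have hp0 : (0:ℝ) < p := lt_trans (by positivity) hp1'
  have hsize := check_size n Q p T M1 S.card X e hn7' (by exact_mod_cast hQn) hQ1
    (by exact_mod_cast heQ) hM1' hp1' hpM' hX hXT hcr
  set K := ⌊((T:ℝ) ^ 2 * ((Q:ℝ) ^ 150 * (M1:ℝ) ^ 16) * S.card) / (2 * n * (p:ℝ) ^ 9)⌋₊ with hK
  have hK1 : (K:ℝ) ≤ ((T:ℝ) ^ 2 * ((Q:ℝ) ^ 150 * (M1:ℝ) ^ 16) * S.card) / (2 * n * (p:ℝ) ^ 9) := by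
    rw [hK]; exact Nat.floor_le (by linarith)
  have hK1' : 1 ≤ K := by
    rw [hK]; exact Nat.le_floor (by exact_mod_cast hsize)
  have hKr : (1:ℝ) ≤ K := by exact_mod_cast hK1'
  have hK2 : ((T:ℝ) ^ 2 * ((Q:ℝ) ^ 150 * (M1:ℝ) ^ 16) * S.card) / (4 * n * (p:ℝ) ^ 9) ≤ K := by
    have h1 : ((T:ℝ) ^ 2 * ((Q:ℝ) ^ 150 * (M1:ℝ) ^ 16) * S.card) / (2 * n * (p:ℝ) ^ 9) < K + 1 := by
      rw [hK]; exact Nat.lt_floor_add_one _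
    have h3 : ((T:ℝ) ^ 2 * ((Q:ℝ) ^ 150 * (M1:ℝ) ^ 16) * S.card) / (4 * n * (p:ℝ) ^ 9) =
        (((T:ℝ) ^ 2 * ((Q:ℝ) ^ 150 * (M1:ℝ) ^ 16) * S.card) / (2 * n * (p:ℝ) ^ 9)) / 2 := by
      field_simp; ring
    rw [h3]
    linarith
  have hmain := check_real n Q p T K M1 S.card X e hn7' hQ1 he
    (by exact_mod_cast heQ) hM1' hp1' hp2' hpM' hX hTr hXT (by exact_mod_cast hTp') hcr
    (by linarith) hK1 hK2
  have hQ11 : 11 ≤ Q := by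
    calc 11 = 11 ^ 1 := by norm_num
      _ ≤ 11 ^ e := Nat.pow_le_pow_right (by norm_num) (by omega)
      _ ≤ Q := heQ
  have hd1 : Q ^ 12 * M1 / Q ^ 2 = Q ^ 10 * M1 := by
    rw [show Q ^ 12 * M1 = Q ^ 2 * (Q ^ 10 * M1) by ring]
    exact Nat.mul_div_cancel_left _ (by positivity)
  have hd2 : Q ^ 2 * M1 / Q ^ 2 = M1 := Nat.mul_div_cancel_left _ (by positivity)
  obtain ⟨Y, hY1, hY2, hY3⟩ := hcore Q (Q ^ 12 * M1) (Q ^ 2 * M1) (8 * Q ^ 7 * M1) T K n p e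
    hQpos ⟨Q ^ 10 * M1, by ring⟩ ⟨M1, rfl⟩ (by positivity) (by positivity)
    (by
      have : 2 ≤ Q ^ 10 := by
        calc 2 ≤ 11 ^ 10 := by norm_num
          _ ≤ Q ^ 10 := Nat.pow_le_pow_left hQ11 _
      calc 2 * (Q ^ 2 * M1) ≤ Q ^ 10 * (Q ^ 2 * M1) := Nat.mul_le_mul_right _ this
        _ = Q ^ 12 * M1 := by ring)
    hMp
    (by
      have : 1 ≤ Q ^ 2 * M1 := Nat.one_le_iff_ne_zero.2 (by positivity)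
      calc 32 * (Q ^ 12 * M1) * (Q ^ 2 * M1 + 1) ≤ 32 * (Q ^ 12 * M1) * (Q ^ 2 * M1 + Q ^ 2 * M1) := by
            gcongr
        _ = (8 * Q ^ 7 * M1) ^ 2 := by ring)
    hT1 hTp (by omega) S hS2
    (by
      rw [hd1, hd2]
      convert hmain using 3
      · push_cast
        ring
      · push_cast
        ring
      · push_cast
        ring)
  refine ⟨T, Y, by omega, hY1, hY2, ?_⟩
  intro a ha b hb c hc hab hbc hac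
  have h3 := hY3 a ha b hb c hc hab hbc hac
  generalize |(b.1 - a.1) * (c.2 - a.2) - (b.2 - a.2) * (c.1 - a.1)| = d at h3 ⊢
  have h3' : (p:ℝ) ≤ 2 * (Q:ℝ) ^ 2 * (d:ℝ) := by exact_mod_cast h3
  have h4 : (p:ℝ) / (4 * (Q:ℝ) ^ 2) ≤ (d:ℝ) / 2 := by
    rw [div_le_div_iff₀ (by positivity) (by norm_num)]
    linarith
  refine le_trans ?_ h4
  have hlogn : 0 < log n := by
    apply log_pos
    linarith
  have h2e : (0:ℝ) < 2 ^ e := by positivity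
  calc Real.exp (1 / 1000 * log n / log (log n)) / (n:ℝ) ^ 2 * (T:ℝ) ^ 2
      ≤ Real.exp (1 / 1000 * log n / log (log n)) / (n:ℝ) ^ 2 * (4 * X) := by
        gcongr
    _ = (Real.exp (1 / 1000 * log n / log (log n)) * (10 ^ 6 * log n)) *
          (33792 / 10 ^ 6 * p / (2 ^ e * (Q:ℝ) ^ 2)) := by
        rw [hX]; field_simp; ring
    _ ≤ 2 ^ e * (33792 / 10 ^ 6 * p / (2 ^ e * (Q:ℝ) ^ 2)) := by
        gcongr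
    _ = 33792 / 10 ^ 6 * p / (Q:ℝ) ^ 2 := by
        field_simp
    _ ≤ (p:ℝ) / (4 * (Q:ℝ) ^ 2) := by
        rw [div_le_div_iff₀ (by positivity) (by positivity)]
        have : 0 < (p:ℝ) * (Q:ℝ) ^ 2 := by positivity
        nlinarith

end Vale.Agent.P036.LB
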