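import Mathlib

/-!
Heilbronn's `Δ(n)` in the Euclidean plane: definitions.
-/

namespace Vale.Agent.P036.LB

/-- the area of the triangle with vertices `p`, `q`, `r` in the Euclidean plane -/
noncomputable def tArea (p q r : EuclideanSpace ℝ (Fin 2)) : ℝ :=
  |(q 0 - p 0) * (r 1 - p 1) - (q 1 - p 1) * (r 0 - p 0)| / 2

/-- the smallest area of a triangle whose vertices are three distinct points of `P` -/
noncomputable def mArea (P : Finset (EuclideanSpace ℝ (Fin 2))) : ℝ :=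
  sInf {A : ℝ | ∃ p ∈ P, ∃ q ∈ P, ∃ r ∈ P, p ≠ q ∧ q ≠ r ∧ p ≠ r ∧ A = tArea p q r}

/-- Heilbronn's `Δ(n)`: the supremum of the smallest triangle area over all `n`-point subsets of
the unit square -/
noncomputable def heilDelta (n : ℕ) : ℝ :=
  sSup {a : ℝ | ∃ P : Finset (EuclideanSpace ℝ (Fin 2)), P.card = n ∧
    (∀ p ∈ P, ∀ i, 0 ≤ p i ∧ p i ≤ 1) ∧ a = mArea P}

end Vale.Agent.P036.LB
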