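import Mathlib
import Vale.Agent.P036.LB.HeilDefs

/-!
Heilbronn's `Δ(n)` in the Euclidean plane and the transfer lemmas.
-/

namespace Vale.Agent.P036.LB

theorem tArea_nonneg (p q r : EuclideanSpace ℝ (Fin 2)) : 0 ≤ tArea p q r := by
  unfold tArea; positivity

theorem mArea_le_one (P : Finset (EuclideanSpace ℝ (Fin 2))) (h3 : 3 ≤ P.card)
    (hP : ∀ p ∈ P, ∀ i, 0 ≤ p i ∧ p i ≤ 1) : mArea P ≤ 1 := by
  obtain ⟨p, q, r, hp, hq, hr, hpq, hpr, hqr⟩ := Finset.two_lt_card_iff.1 h3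
  have hb : BddBelow {A : ℝ | ∃ p ∈ P, ∃ q ∈ P, ∃ r ∈ P, p ≠ q ∧ q ≠ r ∧ p ≠ r ∧
      A = tArea p q r} := by
    refine ⟨0, ?_⟩
    rintro A ⟨p, -, q, -, r, -, -, -, -, rfl⟩
    exact tArea_nonneg p q r
  refine (csInf_le hb ⟨p, hp, q, hq, r, hr, hpq, hqr, hpr, rfl⟩).trans ?_
  unfold tArea
  have a1 := hP p hp 0
  have a2 := hP p hp 1
  have b1 := hP q hq 0
  have b2 := hP q hq 1
  have c1 := hP r hr 0
  have c2 := hP r hr 1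
  have e1 : |(q 0 - p 0) * (r 1 - p 1)| ≤ 1 := by
    rw [abs_mul]
    exact mul_le_one₀ (abs_le.2 ⟨by linarith, by linarith⟩) (abs_nonneg _)
      (abs_le.2 ⟨by linarith, by linarith⟩)
  have e2 : |(q 1 - p 1) * (r 0 - p 0)| ≤ 1 := by
    rw [abs_mul]
    exact mul_le_one₀ (abs_le.2 ⟨by linarith, by linarith⟩) (abs_nonneg _)
      (abs_le.2 ⟨by linarith, by linarith⟩)
  have e3 := abs_sub ((q 0 - p 0) * (r 1 - p 1)) ((q 1 - p 1) * (r 0 - p 0))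
  linarith

/-- a point set all of whose triangles have area at least `a` shows `a ≤ Δ(n)` -/
theorem le_heilDelta {n : ℕ} (h3 : 3 ≤ n) {a : ℝ} (P : Finset (EuclideanSpace ℝ (Fin 2)))
    (hcard : P.card = n) (hP : ∀ p ∈ P, ∀ i, 0 ≤ p i ∧ p i ≤ 1)
    (ha : ∀ p ∈ P, ∀ q ∈ P, ∀ r ∈ P, p ≠ q → q ≠ r → p ≠ r → a ≤ tArea p q r) :
    a ≤ heilDelta n := by
  have hb : BddAbove {a : ℝ | ∃ P : Finset (EuclideanSpace ℝ (Fin 2)), P.card = n ∧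
      (∀ p ∈ P, ∀ i, 0 ≤ p i ∧ p i ≤ 1) ∧ a = mArea P} := by
    refine ⟨1, ?_⟩
    rintro a ⟨P, h1, h2, rfl⟩
    exact mArea_le_one P (by omega) h2
  have h1 : a ≤ mArea P := by
    obtain ⟨p, q, r, hp, hq, hr, hpq, hpr, hqr⟩ := Finset.two_lt_card_iff.1 (show 2 < P.card by omega)
    refine le_csInf ⟨_, p, hp, q, hq, r, hr, hpq, hqr, hpr, rfl⟩ ?_
    rintro A ⟨p, hp, q, hq, r, hr, h1, h2, h3, rfl⟩
    exact ha p hp q hq r hr h1 h2 h3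
  exact h1.trans (le_csSup hb ⟨P, hcard, hP, rfl⟩)

/-- transfer from integer points of `[0,T)²` -/
theorem le_heilDelta_of_int {n : ℕ} (h3 : 3 ≤ n) {a : ℝ} (T : ℕ) (hT : 0 < T) (Y : Finset (ℤ × ℤ))
    (hcard : Y.card = n) (hY : ∀ t ∈ Y, 0 ≤ t.1 ∧ t.1 < T ∧ 0 ≤ t.2 ∧ t.2 < T)
    (ha : ∀ x ∈ Y, ∀ y ∈ Y, ∀ z ∈ Y, x ≠ y → y ≠ z → x ≠ z →
      a * (T:ℝ) ^ 2 ≤
        ((|(y.1 - x.1) * (z.2 - x.2) - (y.2 - x.2) * (z.1 - x.1)| : ℤ) : ℝ) / 2) :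
    a ≤ heilDelta n := by
  classical
  have hT' : (0:ℝ) < T := by exact_mod_cast hT
  let f : ℤ × ℤ → EuclideanSpace ℝ (Fin 2) := fun t => !₂[(t.1:ℝ) / T, (t.2:ℝ) / T]
  have f0 : ∀ t, f t 0 = (t.1:ℝ) / T := fun t => by simp [f]
  have f1 : ∀ t, f t 1 = (t.2:ℝ) / T := fun t => by simp [f]
  have hinj : Function.Injective f := by
    intro s t hst
    have h0 : (s.1:ℝ) / T = (t.1:ℝ) / T := by rw [← f0, ← f0, hst]
    have h1 : (s.2:ℝ) / T = (t.2:ℝ) / T := by rw [← f1, ← f1, hst]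
    rw [div_left_inj' hT'.ne'] at h0 h1
    exact Prod.ext (by exact_mod_cast h0) (by exact_mod_cast h1)
  refine le_heilDelta h3 (Y.image f) (by rw [Finset.card_image_of_injective _ hinj, hcard]) ?_ ?_
  · intro p hp i
    obtain ⟨t, ht, rfl⟩ := Finset.mem_image.1 hp
    obtain ⟨h1, h2, h3, h4⟩ := hY t ht
    have h1' : (0:ℝ) ≤ t.1 := by exact_mod_cast h1
    have h2' : (t.1:ℝ) ≤ T := by exact_mod_cast h2.le
    have h3' : (0:ℝ) ≤ t.2 := by exact_mod_cast h3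
    have h4' : (t.2:ℝ) ≤ T := by exact_mod_cast h4.le
    fin_cases i
    · simp only [Fin.zero_eta, f0]
      exact ⟨by positivity, by rw [div_le_one hT']; exact h2'⟩
    · simp only [Fin.mk_one, f1]
      exact ⟨by positivity, by rw [div_le_one hT']; exact h4'⟩
  · intro p hp q hq r hr hpq hqr hpr
    obtain ⟨x, hx, rfl⟩ := Finset.mem_image.1 hp
    obtain ⟨y, hy, rfl⟩ := Finset.mem_image.1 hq
    obtain ⟨z, hz, rfl⟩ := Finset.mem_image.1 hr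
    have h := ha x hx y hy z hz (fun h => hpq (by rw [h])) (fun h => hqr (by rw [h]))
      (fun h => hpr (by rw [h]))
    unfold tArea
    rw [f0, f0, f0, f1, f1, f1]
    have e : ((y.1:ℝ) / T - (x.1:ℝ) / T) * ((z.2:ℝ) / T - (x.2:ℝ) / T) -
        ((y.2:ℝ) / T - (x.2:ℝ) / T) * ((z.1:ℝ) / T - (x.1:ℝ) / T) =
        (((y.1 - x.1) * (z.2 - x.2) - (y.2 - x.2) * (z.1 - x.1) : ℤ) : ℝ) / (T:ℝ) ^ 2 := by
      push_cast
      field_simp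
    rw [e, abs_div, abs_of_pos (show (0:ℝ) < (T:ℝ) ^ 2 by positivity), ← Int.cast_abs,
      div_div, mul_comm ((T:ℝ) ^ 2) 2, ← div_div, le_div_iff₀ (by positivity)]
    exact h

/-- block I: the lower bound for `Δ(n)` from the statement of `parameters` -/
theorem heil_of_parameters (hpar : ∃ c : ℝ, 0 < c ∧ ∃ n₀ : ℕ, ∀ n : ℕ, n₀ ≤ n →
    ∃ (T : ℕ) (Y : Finset (ℤ × ℤ)), 0 < T ∧ Y.card = n ∧
      (∀ t ∈ Y, 0 ≤ t.1 ∧ t.1 < T ∧ 0 ≤ t.2 ∧ t.2 < T) ∧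
      ∀ a ∈ Y, ∀ b ∈ Y, ∀ c' ∈ Y, a ≠ b → b ≠ c' → a ≠ c' →
        Real.exp (c * Real.log n / Real.log (Real.log n)) / (n:ℝ) ^ 2 * (T:ℝ) ^ 2 ≤
          ((|(b.1 - a.1) * (c'.2 - a.2) - (b.2 - a.2) * (c'.1 - a.1)| : ℤ) : ℝ) / 2) :
    ∃ c : ℝ, 0 < c ∧ ∃ n₀ : ℕ, ∀ n : ℕ, n₀ ≤ n →
      (n:ℝ) ^ (-2 : ℤ) * Real.exp (c * Real.log n / Real.log (Real.log n)) ≤ heilDelta n := by
  obtain ⟨c, hc, n₀, h⟩ := hpar
  refine ⟨c, hc, max n₀ 3, fun n hn => ?_⟩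
  obtain ⟨T, Y, hT, h1, h2, h3⟩ := h n (le_trans (le_max_left _ _) hn)
  refine le_heilDelta_of_int (le_trans (le_max_right _ _) hn) T hT Y h1 h2 ?_
  intro x hx y hy z hz hxy hyz hxz
  refine le_trans (le_of_eq ?_) (h3 x hx y hy z hz hxy hyz hxz)
  rw [zpow_neg, div_eq_mul_inv, mul_comm ((n:ℝ) ^ (2:ℤ))⁻¹]
  norm_cast

/-- a disproof of Heilbronn's almost-`n⁻²` form: form of the conclusion used in the final hand-in.
If `Δ(n) ≥ n^{-2+c}` for arbitrarily large `n` then Q1 fails. -/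
theorem not_Q1_of_power (c : ℝ) (hc : 0 < c)
    (h : ∀ N : ℕ, ∃ n : ℕ, N ≤ n ∧ (n:ℝ) ^ (-2 + c) ≤ heilDelta n) :
    ¬ (∀ ε : ℝ, 0 < ε → ∃ C : ℝ, ∃ n₀ : ℕ, ∀ n : ℕ, n₀ ≤ n →
      heilDelta n ≤ C * (n:ℝ) ^ (-2 + ε)) := by
  intro hQ
  obtain ⟨C, n₀, hC⟩ := hQ (c / 2) (by linarith)
  have hlim : Filter.Tendsto (fun n : ℕ => (n:ℝ) ^ (c / 2)) Filter.atTop Filter.atTop :=
    (tendsto_rpow_atTop (by linarith : 0 < c / 2)).comp tendsto_natCast_atTop_atTop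
  obtain ⟨N, hN⟩ := Filter.eventually_atTop.1 (hlim.eventually (Filter.eventually_gt_atTop C))
  obtain ⟨n, hn, hn2⟩ := h (max (max n₀ N) 1)
  have hn1 : 1 ≤ n := le_trans (le_max_right _ _) hn
  have hn0 : (0:ℝ) < n := by exact_mod_cast hn1
  have h1 := hC n (le_trans (le_trans (le_max_left _ _) (le_max_left _ _)) hn)
  have h2 := hN n (le_trans (le_trans (le_max_right _ _) (le_max_left _ _)) hn)
  have h3 : (n:ℝ) ^ (-2 + c) = (n:ℝ) ^ (c / 2) * (n:ℝ) ^ (-2 + c / 2) := by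
    rw [← Real.rpow_add hn0]; congr 1; ring
  have h4 : 0 < (n:ℝ) ^ (-2 + c / 2) := Real.rpow_pos_of_pos hn0 _
  have h5 : (n:ℝ) ^ (c / 2) * (n:ℝ) ^ (-2 + c / 2) ≤ C * (n:ℝ) ^ (-2 + c / 2) := by
    rw [← h3]; exact hn2.trans h1
  have h6 := le_of_mul_le_mul_right h5 h4
  linarith

end Vale.Agent.P036.LB
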