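import Mathlib
import Vale.Agent.P036.LB.Basic
import Vale.Agent.P036.LB.F
import Vale.Agent.P036.LB.G

/-!
Block K, abstract part: random affine Lagrangians over `ZMod p` and alteration.
-/

namespace Vale.Agent.P036.LB
open Finset

/-- symmetric matrices of arbitrary size -/
def SymG (m p : ℕ) [NeZero p] : Finset (Matrix (Fin m) (Fin m) (ZMod p)) :=
  Finset.univ.filter fun A => A.transpose = A

/-- the points on the affine Lagrangian `eta = A xi + w` -/
def Zset {X : Type} [DecidableEq X] {m p : ℕ} [NeZero p] (pts : Finset X)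
    (xi eta : X → Fin m → ZMod p)
    (a : Matrix (Fin m) (Fin m) (ZMod p) × (Fin m → ZMod p)) : Finset X :=
  pts.filter fun x => eta x = a.1.mulVec (xi x) + a.2

theorem sum_Zset {X : Type} [DecidableEq X] {m p : ℕ} [NeZero p] (pts : Finset X)
    (xi eta : X → Fin m → ZMod p) :
    ∑ a ∈ SymG m p ×ˢ (Finset.univ : Finset (Fin m → ZMod p)), (Zset pts xi eta a).card =
      pts.card * (SymG m p).card := by
  simp only [Zset, Finset.card_filter]
  rw [Finset.sum_comm]
  rw [← smul_eq_mul, ← Finset.sum_const]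
  refine Finset.sum_congr rfl fun x _ => ?_
  rw [Finset.sum_product, Finset.card_eq_sum_ones]
  refine Finset.sum_congr rfl fun A _ => ?_
  rw [Finset.sum_eq_single (eta x - A.mulVec (xi x))]
  · rw [if_pos]
    simp
  · intro w _ hw
    rw [if_neg]
    intro h
    apply hw
    rw [h]
    simp
  · intro h
    exact absurd (Finset.mem_univ _) h

theorem card_ind {X : Type} [DecidableEq X] {m p : ℕ} [Fact p.Prime] (pts : Finset X)
    (xi eta : X → Fin m → ZMod p) (t : X × X × X) (i j : Fin m)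
    (hmin : (xi t.2.1 i - xi t.1 i) * (xi t.2.2 j - xi t.1 j) -
      (xi t.2.1 j - xi t.1 j) * (xi t.2.2 i - xi t.1 i) ≠ 0) :
    ((SymG m p ×ˢ (Finset.univ : Finset (Fin m → ZMod p))).filter fun a =>
      t.1 ∈ Zset pts xi eta a ∧ t.2.1 ∈ Zset pts xi eta a ∧ t.2.2 ∈ Zset pts xi eta a).card *
        p ^ (2 * m - 1) ≤ (SymG m p).card := by
  refine le_trans (Nat.mul_le_mul_right _ ?_)
    (sym_count_two_gen p m (xi t.2.1 - xi t.1) (eta t.2.1 - eta t.1) (xi t.2.2 - xi t.1)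
      (eta t.2.2 - eta t.1) i j hmin)
  refine Finset.card_le_card_of_injOn (fun a => a.1) ?_ ?_
  · rintro ⟨A, w⟩ ha
    rw [Finset.mem_coe, Finset.mem_filter, Finset.mem_product] at ha
    obtain ⟨⟨hA, -⟩, h1, h2, h3⟩ := ha
    rw [Zset, Finset.mem_filter] at h1 h2 h3
    rw [Finset.mem_coe, Finset.mem_filter]
    refine ⟨hA, ?_, ?_⟩
    · rw [Matrix.mulVec_sub, h1.2, h2.2]; simp
    · rw [Matrix.mulVec_sub, h1.2, h3.2]; simp
  · rintro ⟨A, w⟩ ha ⟨A', w'⟩ ha' he
    rw [Finset.mem_coe, Finset.mem_filter, Finset.mem_product] at ha ha'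
    obtain ⟨-, h1, -, -⟩ := ha
    obtain ⟨-, h1', -, -⟩ := ha'
    rw [Zset, Finset.mem_filter] at h1 h1'
    simp only at he h1 h1'
    subst he
    refine Prod.ext rfl ?_
    have := h1.2.symm.trans h1'.2
    exact add_left_cancel this

theorem card_dep {X : Type} [DecidableEq X] {m p : ℕ} [Fact p.Prime] (hm : 0 < m)
    (pts : Finset X) (xi eta : X → Fin m → ZMod p)
    (hinj : ∀ x ∈ pts, ∀ y ∈ pts, xi x = xi y → eta x = eta y → x = y) (t : X × X × X)
    (hne : t.1 ≠ t.2.1) :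
    ((SymG m p ×ˢ (Finset.univ : Finset (Fin m → ZMod p))).filter fun a =>
      t.1 ∈ Zset pts xi eta a ∧ t.2.1 ∈ Zset pts xi eta a ∧ t.2.2 ∈ Zset pts xi eta a).card *
        p ^ (2 * m - 1) ≤ (SymG m p).card * p ^ (m - 1) := by
  by_cases hx : xi t.2.1 - xi t.1 = 0
  · have : ((SymG m p ×ˢ (Finset.univ : Finset (Fin m → ZMod p))).filter fun a =>
      t.1 ∈ Zset pts xi eta a ∧ t.2.1 ∈ Zset pts xi eta a ∧ t.2.2 ∈ Zset pts xi eta a) = ∅ := by
      rw [Finset.filter_eq_empty_iff]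
      rintro ⟨A, w⟩ - ⟨h1, h2, -⟩
      rw [Zset, Finset.mem_filter] at h1 h2
      apply hne
      have hx' : xi t.1 = xi t.2.1 := (sub_eq_zero.1 hx).symm
      refine hinj _ h1.1 _ h2.1 hx' ?_
      rw [h1.2, h2.2, hx']
    rw [this]
    simp
  · have h2 : 2 * m - 1 = m + (m - 1) := by omega
    rw [h2, pow_add, ← mul_assoc]
    refine Nat.mul_le_mul_right _ ?_
    refine le_trans (Nat.mul_le_mul_right _ ?_)
      (sym_count_one_gen p m (xi t.2.1 - xi t.1) (eta t.2.1 - eta t.1) hx)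
    refine Finset.card_le_card_of_injOn (fun a => a.1) ?_ ?_
    · rintro ⟨A, w⟩ ha
      rw [Finset.mem_coe, Finset.mem_filter, Finset.mem_product] at ha
      obtain ⟨⟨hA, -⟩, h1, h2, -⟩ := ha
      rw [Zset, Finset.mem_filter] at h1 h2
      rw [Finset.mem_coe, Finset.mem_filter]
      refine ⟨hA, ?_⟩
      rw [Matrix.mulVec_sub, h1.2, h2.2]; simp
    · rintro ⟨A, w⟩ ha ⟨A', w'⟩ ha' he
      rw [Finset.mem_coe, Finset.mem_filter, Finset.mem_product] at ha ha'
      obtain ⟨-, h1, -, -⟩ := ha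
      obtain ⟨-, h1', -, -⟩ := ha'
      rw [Zset, Finset.mem_filter] at h1 h1'
      simp only at he h1 h1'
      subst he
      refine Prod.ext rfl ?_
      have := h1.2.symm.trans h1'.2
      exact add_left_cancel this

/-- isotropy of the affine Lagrangian -/
theorem isotropic {m p : ℕ} [NeZero p] {A : Matrix (Fin m) (Fin m) (ZMod p)}
    (hA : A.transpose = A) (u v : Fin m → ZMod p) :
    ∑ i, (u i * A.mulVec v i - A.mulVec u i * v i) = 0 := by
  have h1 : ∑ i, u i * A.mulVec v i = u ⬝ᵥ A.mulVec v := rfl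
  have h2 : ∑ i, A.mulVec u i * v i = A.mulVec u ⬝ᵥ v := rfl
  rw [Finset.sum_sub_distrib, h1, h2]
  have h3 : A.mulVec u ⬝ᵥ v = u ⬝ᵥ A.mulVec v := by
    rw [Matrix.dotProduct_mulVec, ← Matrix.mulVec_transpose, hA]
  rw [h3, sub_self]

theorem lagr_core {X : Type} [DecidableEq X] (m p : ℕ) [Fact p.Prime] (hm : 0 < m)
    (pts : Finset X) (xi eta : X → Fin m → ZMod p)
    (hinj : ∀ x ∈ pts, ∀ y ∈ pts, xi x = xi y → eta x = eta y → x = y)
    (ind dep : Finset (X × X × X))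
    (hi : ∀ t ∈ ind, t.1 ≠ t.2.1 ∧ t.2.1 ≠ t.2.2 ∧ t.1 ≠ t.2.2)
    (hd : ∀ t ∈ dep, t.1 ≠ t.2.1 ∧ t.2.1 ≠ t.2.2 ∧ t.1 ≠ t.2.2)
    (hmin : ∀ t ∈ ind, ∃ i j, (xi t.2.1 i - xi t.1 i) * (xi t.2.2 j - xi t.1 j) -
      (xi t.2.1 j - xi t.1 j) * (xi t.2.2 i - xi t.1 i) ≠ 0)
    (K n : ℕ) (hK : 0 < K)
    (h : n * K ^ 3 * p ^ (3 * m - 1) + ind.card + dep.card * p ^ (m - 1) ≤
      K ^ 2 * pts.card * p ^ (2 * m - 1)) :
    ∃ Y ⊆ pts, Y.card = n ∧ (∀ t ∈ ind ∪ dep, ¬ (t.1 ∈ Y ∧ t.2.1 ∈ Y ∧ t.2.2 ∈ Y)) ∧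
      ∀ x ∈ Y, ∀ y ∈ Y, ∀ z ∈ Y,
        ∑ i, ((xi y i - xi x i) * (eta z i - eta x i) -
          (eta y i - eta x i) * (xi z i - xi x i)) = 0 := by
  classical
  have hp : 0 < p := (Fact.out : p.Prime).pos
  set P := SymG m p ×ˢ (Finset.univ : Finset (Fin m → ZMod p)) with hPdef
  have hS0 : 0 < (SymG m p).card := by
    rw [Finset.card_pos]
    exact ⟨0, by rw [SymG, Finset.mem_filter]; simp⟩
  have hPc : P.card = (SymG m p).card * p ^ m := by
    rw [hPdef, Finset.card_product, Finset.card_univ, Fintype.card_fun, ZMod.card,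
      Fintype.card_fin]
  have hPne : P.Nonempty := by
    rw [← Finset.card_pos, hPc]; positivity
  have hsum : ∑ a ∈ P, ((ind ∪ dep).filter fun t => t.1 ∈ Zset pts xi eta a ∧
      t.2.1 ∈ Zset pts xi eta a ∧ t.2.2 ∈ Zset pts xi eta a).card * p ^ (2 * m - 1) ≤
      ind.card * (SymG m p).card + dep.card * ((SymG m p).card * p ^ (m - 1)) := by
    rw [← Finset.sum_mul]
    have e1 : ∑ a ∈ P, ((ind ∪ dep).filter fun t => t.1 ∈ Zset pts xi eta a ∧
        t.2.1 ∈ Zset pts xi eta a ∧ t.2.2 ∈ Zset pts xi eta a).card =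
        ∑ t ∈ ind ∪ dep, (P.filter fun a => t.1 ∈ Zset pts xi eta a ∧
          t.2.1 ∈ Zset pts xi eta a ∧ t.2.2 ∈ Zset pts xi eta a).card := by
      simp only [Finset.card_filter]
      rw [Finset.sum_comm]
    rw [e1, Finset.sum_mul]
    refine le_trans (Nat.le_add_right _ _) (le_of_eq (Finset.sum_union_inter)) |>.trans ?_
    refine Nat.add_le_add ?_ ?_
    · have e3 : ind.card * (SymG m p).card = ∑ _t ∈ ind, (SymG m p).card := by
        rw [Finset.sum_const, smul_eq_mul]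
      rw [e3]
      refine Finset.sum_le_sum fun t ht => ?_
      obtain ⟨i, j, hij⟩ := hmin t ht
      exact card_ind pts xi eta t i j hij
    · have e3 : dep.card * ((SymG m p).card * p ^ (m - 1)) =
          ∑ _t ∈ dep, (SymG m p).card * p ^ (m - 1) := by
        rw [Finset.sum_const, smul_eq_mul]
      rw [e3]
      refine Finset.sum_le_sum fun t ht => ?_
      exact card_dep hm pts xi eta hinj t (hd t ht).1
  have hkey : n * K ^ 3 * P.card +
        ∑ a ∈ P, ((ind ∪ dep).filter fun t => t.1 ∈ Zset pts xi eta a ∧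
          t.2.1 ∈ Zset pts xi eta a ∧ t.2.2 ∈ Zset pts xi eta a).card
      ≤ K ^ 2 * ∑ a ∈ P, (Zset pts xi eta a).card := by
    rw [hPdef, sum_Zset, ← hPdef, hPc]
    have hpp : 0 < p ^ (2 * m - 1) := by positivity
    refine Nat.le_of_mul_le_mul_right ?_ hpp
    rw [add_mul, Finset.sum_mul]
    have e2 : p ^ (3 * m - 1) = p ^ m * p ^ (2 * m - 1) := by
      rw [← pow_add]; congr 1; omega
    calc _ ≤ n * K ^ 3 * ((SymG m p).card * p ^ m) * p ^ (2 * m - 1) +
          (ind.card * (SymG m p).card + dep.card * ((SymG m p).card * p ^ (m - 1))) :=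
          Nat.add_le_add_left hsum _
      _ = (n * K ^ 3 * p ^ (3 * m - 1) + ind.card + dep.card * p ^ (m - 1)) *
          (SymG m p).card := by rw [e2]; ring
      _ ≤ (K ^ 2 * pts.card * p ^ (2 * m - 1)) * (SymG m p).card :=
          Nat.mul_le_mul_right _ h
      _ = _ := by ring
  obtain ⟨a, ha, Y, hY, hYn, hYb⟩ := alteration P hPne pts (Zset pts xi eta)
    (fun a _ => Finset.filter_subset _ _) (ind ∪ dep) (fun t ht => by
      rcases Finset.mem_union.1 ht with h | h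
      · exact hi t h
      · exact hd t h) K n hK hkey
  refine ⟨Y, fun x hx => (Finset.mem_filter.1 (hY hx)).1, hYn, hYb, ?_⟩
  intro x hx y hy z hz
  have hx' := (Finset.mem_filter.1 (hY hx)).2
  have hy' := (Finset.mem_filter.1 (hY hy)).2
  have hz' := (Finset.mem_filter.1 (hY hz)).2
  have hA : a.1.transpose = a.1 := by
    rw [hPdef, Finset.mem_product, SymG, Finset.mem_filter] at ha
    exact ha.1.2
  have h1 := isotropic hA (xi y - xi x) (xi z - xi x)
  rw [← h1]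
  refine Finset.sum_congr rfl fun i _ => ?_
  rw [Matrix.mulVec_sub, Matrix.mulVec_sub, hx', hy', hz']
  simp only [Pi.sub_apply, Pi.add_apply]
  ring

end Vale.Agent.P036.LB
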